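-- KEEP
import Claimed.Agent.R282.K2.ADefs
import Claimed.Agent.R282.K2.FreeKit

/-!
# Row 282, layer K2, package A: chain counts as natural numbers (helper132).  NO sorry.

Built on helper40's `K2/ADefs.lean` (`Step`, `opT`, `rho`, `deltaAt`).
`M : PiRep k n V`, all `V i` finite types; a family is `N : ∀ i, Submodule k (V i)`.

* `M.steps i N`   : the `Finset` of the `N₁` with `M.Step i N N₁`;  `PiRep.fams k V` : ALL families.
* `M.cnt w N N'`  : the number of chains `N = N⁰ > N¹ > ... > N^m = N'` with `Step (w_s) N^(s-1) N^s`.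
* BRIDGE          : `rho_wordMon`  : `rho (wordMon w) φ N = ∑ N', cnt w N N' * φ N'`,
                    `deltaAt_wordMon` : `deltaAt N (wordMon w) = cnt w N ⊥`.
* `cnt_append` (A1 of the plan), `cnt_concat` (last step).
* `M.topAt i N = dim N_i - dim (rad_i N)_i`;  `M.socAt i N'` = vectors at `i` mapped into `N'` by all arrows.
* `qnum q c = 1 + q + ... + q^(c-1)`, `qfact q c = [c]_q!`, `qfact_cast`.
* `M.dualRep` : the dual module on the dual spaces.
-/

set_option autoImplicit false

namespace Claimed.Agent.R282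

open Module

/-- `[c]_q = 1 + q + ... + q^(c-1)` -/
def qnum (q c : ℕ) : ℕ := ∑ s ∈ Finset.range c, q ^ s

/-- `[c]_q!` -/
def qfact (q : ℕ) : ℕ → ℕ
  | 0 => 1
  | c + 1 => qnum q (c + 1) * qfact q c

theorem qnum_cast (R : Type) [CommRing R] (q c : ℕ) (hq : (q : R) = 1) : (qnum q c : R) = c := by
  simp [qnum, hq]

theorem qfact_cast (R : Type) [CommRing R] (q c : ℕ) (hq : (q : R) = 1) :
    (qfact q c : R) = (c.factorial : R) := by
  induction c with
  | zero => simp [qfact]
  | succ c ih =>
    rw [qfact, Nat.cast_mul, ih, qnum_cast R q _ hq, Nat.factorial_succ, Nat.cast_mul]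

namespace PiRep

variable {k : Type} [Field k] {n : ℕ} {V : Fin n → Type} [∀ i, AddCommGroup (V i)]
  [∀ i, Module k (V i)] (M : PiRep k n V)

/-- `top_i N` -/
noncomputable def topAt (i : Fin n) (N : ∀ i, Submodule k (V i)) : ℕ :=
  finrank k (N i) - finrank k (M.radAt i N i)

/-- the vectors at `i` which all arrows map into `N'` -/
def socAt (i : Fin n) (N' : ∀ i, Submodule k (V i)) : Submodule k (V i) :=
  ⨅ j, (N' j).comap (M.a i j)

section Fin

variable [∀ i, Finite (V i)]

/-- all families of subspaces -/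
noncomputable def fams (k : Type) [Field k] {n : ℕ} (V : Fin n → Type) [∀ i, AddCommGroup (V i)]
    [∀ i, Module k (V i)] [∀ i, Finite (V i)] : Finset (∀ i, Submodule k (V i)) :=
  (Set.toFinite (Set.univ : Set (∀ i, Submodule k (V i)))).toFinset

theorem mem_fams (N : ∀ i, Submodule k (V i)) : N ∈ fams k V := by simp [fams]

/-- the possible steps at `i` from `N` -/
noncomputable def steps (i : Fin n) (N : ∀ i, Submodule k (V i)) :
    Finset (∀ i, Submodule k (V i)) :=
  (Set.toFinite {N₁ | M.Step i N N₁}).toFinset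

theorem mem_steps {i : Fin n} {N N₁ : ∀ i, Submodule k (V i)} :
    N₁ ∈ M.steps i N ↔ M.Step i N N₁ := by simp [steps]

open Classical in
/-- the number of chains of type `w` from `N` down to `N'` -/
noncomputable def cnt : List (Fin n) → (∀ i, Submodule k (V i)) → (∀ i, Submodule k (V i)) → ℕ
  | [], N, N' => if N = N' then 1 else 0
  | i :: w, N, N' => ∑ N₁ ∈ M.steps i N, cnt w N₁ N'

theorem cnt_nil (N N' : ∀ i, Submodule k (V i)) [Decidable (N = N')] :
    M.cnt [] N N' = if N = N' then 1 else 0 := by
  simp only [cnt]; congr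

theorem cnt_nil_self (N : ∀ i, Submodule k (V i)) : M.cnt [] N N = 1 := by simp [cnt]

theorem cnt_nil_ne {N N' : ∀ i, Submodule k (V i)} (h : N ≠ N') : M.cnt [] N N' = 0 := by
  simp [cnt, h]

theorem cnt_cons (i : Fin n) (w : List (Fin n)) (N N' : ∀ i, Submodule k (V i)) :
    M.cnt (i :: w) N N' = ∑ N₁ ∈ M.steps i N, M.cnt w N₁ N' := rfl

/-- sums against `cnt []` -/
theorem sum_cnt_nil {A : Type} [AddCommMonoid A] (N : ∀ i, Submodule k (V i))
    (f : (∀ i, Submodule k (V i)) → A) :
    ∑ N₁ ∈ fams k V, (M.cnt [] N N₁) • f N₁ = f N := by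
  classical
  rw [Finset.sum_eq_single N]
  · simp [cnt_nil_self]
  · intro b _ hb
    rw [cnt_nil_ne M (Ne.symm hb), zero_smul]
  · intro h; exact absurd (mem_fams N) h

/-- A1: decomposition of chains -/
theorem cnt_append (u v : List (Fin n)) (N N' : ∀ i, Submodule k (V i)) :
    M.cnt (u ++ v) N N' = ∑ N₁ ∈ fams k V, M.cnt u N N₁ * M.cnt v N₁ N' := by
  induction u generalizing N with
  | nil =>
    have := sum_cnt_nil M N (fun N₁ => M.cnt v N₁ N')
    simpa using this.symm
  | cons i u ih =>
    simp only [List.cons_append, cnt_cons, ih, Finset.sum_mul]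
    rw [Finset.sum_comm]

/-- a single step -/
theorem cnt_singleton (i : Fin n) (N N' : ∀ i, Submodule k (V i)) [Decidable (M.Step i N N')] :
    M.cnt [i] N N' = if M.Step i N N' then 1 else 0 := by
  classical
  rw [cnt_cons]
  split_ifs with h
  · rw [Finset.sum_eq_single N']
    · exact cnt_nil_self M N'
    · intro b _ hb; exact cnt_nil_ne M hb
    · intro h'; exact absurd (M.mem_steps.2 h) h'
  · apply Finset.sum_eq_zero
    intro b hb
    apply cnt_nil_ne
    rintro rfl
    exact h (M.mem_steps.1 hb)

open Classical in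
/-- A1, last step -/
theorem cnt_concat (w : List (Fin n)) (i : Fin n) (N N' : ∀ i, Submodule k (V i)) :
    M.cnt (w ++ [i]) N N' = ∑ N₁ ∈ (fams k V).filter (fun N₁ => M.Step i N₁ N'), M.cnt w N N₁ := by
  rw [cnt_append, Finset.sum_filter]
  apply Finset.sum_congr rfl
  intro N₁ _
  rw [cnt_singleton]
  split_ifs <;> simp

variable (R : Type) [CommRing R]

theorem opT_apply (i : Fin n) (φ : (∀ i, Submodule k (V i)) → R) (N : ∀ i, Submodule k (V i)) :
    M.opT R i φ N = ∑ N₁ ∈ M.steps i N, φ N₁ := by
  classical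
  simp only [opT, LinearMap.coe_mk, AddHom.coe_mk]
  apply Finset.sum_congr _ (fun _ _ => rfl)
  ext N₁
  simp [mem_steps]

theorem rho_fgen (i : Fin n) : M.rho R (fgen R n i) = M.opT R i := by
  simp [rho, fgen]

/-- BRIDGE between the operators and the counts -/
theorem rho_wordMon (w : List (Fin n)) (φ : (∀ i, Submodule k (V i)) → R)
    (N : ∀ i, Submodule k (V i)) :
    M.rho R (wordMon R n w) φ N = ∑ N' ∈ fams k V, (M.cnt w N N' : R) * φ N' := by
  induction w generalizing N with
  | nil =>
    have := sum_cnt_nil M N φ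
    simp only [wordMon_nil, map_one, Module.End.one_apply]
    rw [← this]
    simp
  | cons i w ih =>
    rw [wordMon_cons, map_mul, rho_fgen, Module.End.mul_apply, opT_apply]
    simp only [ih, cnt_cons, Nat.cast_sum, Finset.sum_mul]
    rw [Finset.sum_comm]

theorem deltaAt_apply (N : ∀ i, Submodule k (V i)) (x : FreeAlgebra R (Fin n)) :
    M.deltaAt R N x = M.rho R x (Pi.single ⊥ 1) N := by
  classical
  simp only [deltaAt, LinearMap.comp_apply, LinearMap.applyₗ_apply_apply, LinearMap.proj_apply,
    AlgHom.toLinearMap_apply]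

theorem deltaAt_wordMon (N : ∀ i, Submodule k (V i)) (w : List (Fin n)) :
    M.deltaAt R N (wordMon R n w) = (M.cnt w N ⊥ : R) := by
  classical
  rw [deltaAt_apply, rho_wordMon, Finset.sum_eq_single ⊥]
  · simp
  · intro b _ hb; simp [Pi.single_eq_of_ne hb]
  · intro h; exact absurd (mem_fams _) h

end Fin

/-- the dual module on the dual spaces -/
def dualRep : PiRep k n (fun i => Module.Dual k (V i)) where
  a := fun i j => (M.a j i).dualMap
  zero := fun i j hij => by
    have : ¬ adjD n j i := fun h => hij (by unfold adjD at h ⊢; tauto)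
    rw [M.zero j i this]
    ext; simp
  rel := fun i => by
    have h := congrArg LinearMap.dualMap (M.rel i)
    apply LinearMap.ext
    intro f
    apply LinearMap.ext
    intro x
    have h' := congrArg (fun g : Module.Dual k (V i) →ₗ[k] Module.Dual k (V i) => g f x) h
    simp only [LinearMap.dualMap_apply, LinearMap.sum_apply, LinearMap.smul_apply,
      LinearMap.comp_apply, map_sum, map_smul, LinearMap.zero_apply, map_zero] at h'
    simp only [LinearMap.sum_apply, LinearMap.smul_apply, LinearMap.comp_apply,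
      LinearMap.dualMap_apply, LinearMap.zero_apply]
    exact h'

end PiRep

end Claimed.Agent.R282
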