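import Claimed.Agent.R282.K2.A.Flags

/-!
# Row 282, layer K2, package A6: duality of chain counts (leaves L-K2A-ORTH, L-K2A-DUAL: DONE, no sorry)

`M : PiMod k n d`, `M.dual` = transposed matrices (`K2/DDefs.lean`): `M.dual.a i j = (M.a j i)ᵀ`.
`kOrth P = {y | ∀ x ∈ P, x ⬝ᵥ y = 0}` for `P ≤ (Fin m → k)`;   `kOrthF N = fun i => kOrth (N i)`.

PLAN.
L-K2A-ORTH (pure linear algebra over any field)
* `kOrth_finrank` : `finrank (kOrth P) + finrank P = m`.  E.g. `kOrth P` corresponds to `P.dualAnnihilator` under the equivalence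
  `(Fin m → k) ≃ₗ Dual k (Fin m → k)`, `y ↦ (x ↦ x ⬝ᵥ y)` (`Module.piEquiv` / `LinearMap.toMatrix`-free: `dotProductEquiv`), then
  `Subspace.finrank_add_finrank_dualAnnihilator_eq`;  or `LinearMap.BilinForm.finrank_orthogonal` for the form `Matrix.toBilin' 1`.
* `kOrth_kOrth` : `P ≤ kOrth (kOrth P)` is clear (`dotProduct_comm`), equality by `finrank` (`Submodule.eq_of_le_of_finrank_eq`).
* `kOrth_anti`, `kOrth_top`, `kOrth_bot`, `kOrth_le_iff`.
* `kOrth_map` : `P.map (mulVecLin A) ≤ Q → (kOrth Q).map (mulVecLin Aᵀ) ≤ kOrth P`   (`Matrix.dotProduct_mulVec`, `Matrix.vecMul_transpose`).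
L-K2A-DUAL
* `isSub_kOrthF` : from `kOrth_map`.   `isSub_kOrthF_iff` with `kOrth_kOrth` and `M.dual.dual = M`-free: apply `kOrth_map` to `Aᵀ`, `Matrix.transpose_transpose`.
* `step_kOrthF` : `M.toRep.Step i N N₁ ↔ M.dual.toRep.Step i (kOrthF N₁) (kOrthF N)`  (`kOrth_finrank` for the dimensions).
* `cnt_kOrthF` : induction on `w` generalizing `N`:  `cnt M (i :: w) N N' = ∑_(Step i N N₁) cnt M w N₁ N'`
  `= ∑_(Step' i (kOrthF N₁) (kOrthF N)) cnt M.dual w.reverse (kOrthF N') (kOrthF N₁) = cnt M.dual (w.reverse ++ [i]) (kOrthF N') (kOrthF N)` by `cnt_concat`;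
  reindex the sum by the involution `kOrthF` (`Finset.sum_bij'` / `Finset.sum_nbij'`).
* `cnt_dual` : `N = ⊤`, `N' = ⊥`.
-/

set_option autoImplicit false

namespace Claimed.Agent.R282

open Module

section Orth

variable {k : Type} [Field k] {m m' : ℕ}

/-- the orthogonal complement for the dot product -/
def kOrth (P : Submodule k (Fin m → k)) : Submodule k (Fin m → k) where
  carrier := {y | ∀ x ∈ P, x ⬝ᵥ y = 0}
  add_mem' := fun {a b} ha hb x hx => by rw [dotProduct_add, ha x hx, hb x hx, add_zero]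
  zero_mem' := fun x _ => dotProduct_zero x
  smul_mem' := fun c a ha x hx => by rw [dotProduct_smul, ha x hx, smul_zero]

theorem mem_kOrth {P : Submodule k (Fin m → k)} {y : Fin m → k} :
    y ∈ kOrth P ↔ ∀ x ∈ P, x ⬝ᵥ y = 0 := Iff.rfl

theorem kOrth_finrank (P : Submodule k (Fin m → k)) : finrank k (kOrth P) + finrank k P = m := by
  have hB : (Matrix.toBilin' (1 : Matrix (Fin m) (Fin m) k)).Nondegenerate :=
    LinearMap.BilinForm.nondegenerate_toBilin'_of_det_ne_zero' _ (by simp)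
  have h1 := LinearMap.BilinForm.finrank_orthogonal hB P
  have h2 : (Matrix.toBilin' (1 : Matrix (Fin m) (Fin m) k)).orthogonal P = kOrth P := by
    ext y
    rw [LinearMap.BilinForm.mem_orthogonal_iff, mem_kOrth]
    simp only [Matrix.toBilin'_apply', Matrix.one_mulVec]
  rw [h2, Module.finrank_fin_fun] at h1
  have h3 : finrank k P ≤ m := by
    have := Submodule.finrank_le P
    rwa [Module.finrank_fin_fun] at this
  omega

theorem kOrth_kOrth (P : Submodule k (Fin m → k)) : kOrth (kOrth P) = P := by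
  have h1 : P ≤ kOrth (kOrth P) := fun x hx y hy => by
    rw [dotProduct_comm]; exact hy x hx
  have h2 := kOrth_finrank P
  have h3 := kOrth_finrank (kOrth P)
  exact (Submodule.eq_of_le_of_finrank_eq h1 (by omega)).symm

theorem kOrth_anti {P Q : Submodule k (Fin m → k)} (h : P ≤ Q) : kOrth Q ≤ kOrth P :=
  fun _ hy x hx => hy x (h hx)

theorem kOrth_le_iff {P Q : Submodule k (Fin m → k)} : kOrth Q ≤ kOrth P ↔ P ≤ Q :=
  ⟨fun h => by simpa only [kOrth_kOrth] using kOrth_anti h, kOrth_anti⟩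

theorem kOrth_top : kOrth (⊤ : Submodule k (Fin m → k)) = ⊥ := by
  have h := kOrth_finrank (⊤ : Submodule k (Fin m → k))
  rw [finrank_top, Module.finrank_fin_fun] at h
  exact Submodule.finrank_eq_zero.1 (by omega)

theorem kOrth_bot : kOrth (⊥ : Submodule k (Fin m → k)) = ⊤ := by
  rw [eq_top_iff]
  intro y _ x hx
  rw [Submodule.mem_bot] at hx
  rw [hx, zero_dotProduct]

theorem kOrth_map (A : Matrix (Fin m') (Fin m) k) {P : Submodule k (Fin m → k)}
    {Q : Submodule k (Fin m' → k)} (h : P.map (Matrix.mulVecLin A) ≤ Q) :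
    (kOrth Q).map (Matrix.mulVecLin A.transpose) ≤ kOrth P := by
  rintro _ ⟨y, hy, rfl⟩ x hx
  have h1 : A.mulVec x ∈ Q := h ⟨x, hx, rfl⟩
  have h2 := hy _ h1
  rw [Matrix.mulVecLin_apply, Matrix.mulVec_transpose, dotProduct_comm, ← Matrix.dotProduct_mulVec,
    dotProduct_comm]
  exact h2

end Orth

section DualCnt

variable {k : Type} [Field k] {n : ℕ} {d : Fin n → ℕ}

/-- orthogonal complements, componentwise -/
def kOrthF (N : ∀ i, Submodule k (Fin (d i) → k)) : ∀ i, Submodule k (Fin (d i) → k) :=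
  fun i => kOrth (N i)

theorem kOrthF_kOrthF (N : ∀ i, Submodule k (Fin (d i) → k)) : kOrthF (kOrthF N) = N :=
  funext fun i => kOrth_kOrth (N i)

theorem isSub_kOrthF_iff (M : PiMod k n d) (N : ∀ i, Submodule k (Fin (d i) → k)) :
    M.dual.toRep.IsSub (kOrthF N) ↔ M.toRep.IsSub N := by
  constructor
  · intro h i j
    have h1 : (kOrth (N j)).map (Matrix.mulVecLin (M.a i j).transpose) ≤ kOrth (N i) := h j i
    have h2 := kOrth_map _ h1
    rwa [kOrth_kOrth, kOrth_kOrth, Matrix.transpose_transpose] at h2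
  · intro h i j
    exact kOrth_map (M.a j i) (h j i)

theorem step_kOrthF (M : PiMod k n d) (i : Fin n) (N N₁ : ∀ i, Submodule k (Fin (d i) → k)) :
    M.dual.toRep.Step i (kOrthF N₁) (kOrthF N) ↔ M.toRep.Step i N N₁ := by
  have hinj : ∀ {m : ℕ} {P Q : Submodule k (Fin m → k)}, kOrth P = kOrth Q → P = Q := by
    intro m P Q h
    rw [← kOrth_kOrth P, h, kOrth_kOrth]
  have f1 := kOrth_finrank (N i)
  have f2 := kOrth_finrank (N₁ i)
  have g : ∀ (a b a' b' m : ℕ), a' + a = m → b' + b = m → (a' + 1 = b' ↔ b + 1 = a) := by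
    intro a b a' b' m h1 h2
    omega
  unfold PiRep.Step
  rw [isSub_kOrthF_iff, isSub_kOrthF_iff]
  constructor
  · rintro ⟨h1, h2, h3, h4, h5⟩
    refine ⟨h2, h1, fun x => kOrth_le_iff.1 (h3 x), fun x hx => (hinj (h4 x hx)).symm, ?_⟩
    exact (g _ _ _ _ _ f1 f2).1 h5
  · rintro ⟨h1, h2, h3, h4, h5⟩
    refine ⟨h2, h1, fun x => kOrth_le_iff.2 (h3 x), fun x hx => ?_, ?_⟩
    · show kOrth (N x) = kOrth (N₁ x)
      rw [h4 x hx]
    · exact (g _ _ _ _ _ f1 f2).2 h5

variable [Fintype k]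

theorem cnt_kOrthF (M : PiMod k n d) (w : List (Fin n))
    (N N' : ∀ i, Submodule k (Fin (d i) → k)) :
    M.dual.toRep.cnt w.reverse (kOrthF N') (kOrthF N) = M.toRep.cnt w N N' := by
  classical
  induction w generalizing N with
  | nil =>
    rw [List.reverse_nil, PiRep.cnt_nil, PiRep.cnt_nil]
    by_cases h : N = N'
    · subst h; simp
    · rw [if_neg h, if_neg]
      intro h'
      apply h
      rw [← kOrthF_kOrthF N, ← h', kOrthF_kOrthF]
  | cons i w ih =>
    rw [List.reverse_cons, PiRep.cnt_concat, PiRep.cnt_cons]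
    symm
    apply Finset.sum_nbij' kOrthF kOrthF
    · intro N₁ hN₁
      exact Finset.mem_filter.2 ⟨PiRep.mem_fams _,
        (step_kOrthF M i N N₁).2 (M.toRep.mem_steps.1 hN₁)⟩
    · intro N₁ hN₁
      rw [PiRep.mem_steps, ← step_kOrthF, kOrthF_kOrthF]
      exact (Finset.mem_filter.1 hN₁).2
    · intro N₁ _
      exact kOrthF_kOrthF N₁
    · intro N₁ _
      exact kOrthF_kOrthF N₁
    · intro N₁ _
      exact (ih N₁).symm

/-- A6 -/
theorem cnt_dual (M : PiMod k n d) (w : List (Fin n)) :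
    M.dual.toRep.cnt w ⊤ ⊥ = M.toRep.cnt w.reverse ⊤ ⊥ := by
  have h := cnt_kOrthF M w.reverse ⊤ ⊥
  rw [List.reverse_reverse] at h
  have h1 : kOrthF (⊥ : ∀ i, Submodule k (Fin (d i) → k)) = ⊤ := funext fun i => kOrth_bot
  have h2 : kOrthF (⊤ : ∀ i, Submodule k (Fin (d i) → k)) = ⊥ := funext fun i => kOrth_top
  rw [h1, h2] at h
  exact h

end DualCnt

end Claimed.Agent.R282
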