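import Claimed.Agent.R282.K2.A.Socle

/-!
# Row 282, layer K2, package A4/A5: tops of nonzero modules, exhaustion (leaf L-K2A-EXH: DONE, no sorry)

ANY field.  Input: `exists_socle` (`K2/A/Socle.lean`), `K2/A/Rad.lean`.

PLAN.
* `top_ne` : if `⨆ j, range (a j i) = ⊤` for all `i` then all `V i` are `0`.  Suppose `x : V i`, `x ≠ 0`.  There is `f : Dual k (V i)` with `f x ≠ 0`
  (`Module.forall_dual_apply_eq_zero_iff`), so `f ≠ 0`; `exists_socle M.dualRep i f` gives `i'`, `g ≠ 0` with `g ∘ a j i' = 0` for all `j`
  (`dualRep.a i' j = (M.a j i').dualMap`), so `g` vanishes on `⨆ j, range (a j i') = ⊤` (`LinearMap.range_le_ker_iff` / `iSup_le`), `g = 0`.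
* `rad_fix` : apply `top_ne` to `M.restrict N hN`.  `range ((M.restrict N hN).a j i) = ((N j).map (M.a j i)).comap (N i).subtype`; to avoid `comap` of `⨆`
  prove `⊤ ≤ ⨆ ..` after `Submodule.map (N i).subtype` (injective: `Submodule.map_injective_of_injective`, `Submodule.map_iSup`, `Submodule.map_subtype_top`).
* `exh_round` : let `D N = ∑ i, finrank (N i)`.  General: for every list `w`, `radSeq w N = N` or `D (radSeq w N) < D N` (induction, `radAt_le`,
  `Submodule.finrank_lt_finrank_of_lt`, `Finset.sum_lt_sum`); moreover if `radSeq w N = N` then `radAt i N = N` for all `i ∈ w`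
  (if the first step is strict the total dimension drops for good).  With `w = List.finRange n` (`List.mem_finRange`) and `rad_fix`: `N = ⊥`.
* `exh_rounds` : induction on `m`.
* `exh_k2Seq`  : `radAt i₀ ⊤` is a submodule of total dimension `≤ ∑ d i`  (`Module.finrank_fin_fun`).
-/

set_option autoImplicit false

namespace Claimed.Agent.R282

open Module

namespace PiRep

variable {k : Type} [Field k] {n : ℕ} {V : Fin n → Type} [∀ i, AddCommGroup (V i)]
  [∀ i, Module k (V i)] (M : PiRep k n V)

/-- A4, top form -/
theorem top_ne (h : ∀ i, ⨆ j, LinearMap.range (M.a j i) = ⊤) (i : Fin n) (x : V i) : x = 0 := by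
  by_contra hx
  obtain ⟨f, hf⟩ : ∃ f : Module.Dual k (V i), f x ≠ 0 := by
    by_contra hcon
    push Not at hcon
    exact hx ((Module.forall_dual_apply_eq_zero_iff k x).1 hcon)
  have hf0 : f ≠ 0 := by
    rintro rfl
    exact hf rfl
  obtain ⟨i', g, hg, hsoc⟩ := M.dualRep.exists_socle i f hf0
  apply hg
  have hker : (⊤ : Submodule k (V i')) ≤ LinearMap.ker g := by
    rw [← h i']
    refine iSup_le fun j => ?_
    rintro _ ⟨y, rfl⟩
    have h2 := congrArg (fun φ : Module.Dual k (V j) => φ y) (hsoc j)
    exact h2
  ext y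
  exact hker (Submodule.mem_top)

variable {M} {N : ∀ i, Submodule k (V i)}

/-- A4 for submodules -/
theorem rad_fix (hN : M.IsSub N) (h : ∀ i, M.radAt i N = N) : N = ⊥ := by
  have key : ∀ i, ⨆ j, LinearMap.range ((M.restrict N hN).a j i) = ⊤ := by
    intro i
    apply Submodule.map_injective_of_injective (N i).injective_subtype
    rw [Submodule.map_iSup, Submodule.map_subtype_top]
    have h1 : M.radAt i N i = N i := by rw [h i]
    rw [radAt_same] at h1
    refine Eq.trans ?_ h1
    congr 1
    funext j
    ext y
    constructor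
    · rintro ⟨_, ⟨x, rfl⟩, rfl⟩
      exact ⟨x.1, x.2, rfl⟩
    · rintro ⟨x, hx, rfl⟩
      exact ⟨_, ⟨⟨x, hx⟩, rfl⟩, rfl⟩
  funext i
  show N i = ⊥
  rw [eq_bot_iff]
  intro x hx
  have h0 := top_ne (M.restrict N hN) key i ⟨x, hx⟩
  exact congrArg Subtype.val h0

theorem radSeq_append (M : PiRep k n V) (u v : List (Fin n)) (N : ∀ i, Submodule k (V i)) :
    M.radSeq (u ++ v) N = M.radSeq v (M.radSeq u N) := by
  induction u generalizing N with
  | nil => rfl
  | cons i u ih => exact ih _

variable [∀ i, Module.Finite k (V i)]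

theorem exh_mono {N₁ : ∀ i, Submodule k (V i)} (h : N₁ ≤ N) :
    ∑ i, finrank k (N₁ i) ≤ ∑ i, finrank k (N i) :=
  Finset.sum_le_sum fun i _ => Submodule.finrank_mono (h i)

theorem exh_list (hN : M.IsSub N) (w : List (Fin n)) :
    (∀ i ∈ w, M.radAt i N = N) ∨ ∑ i, finrank k (M.radSeq w N i) < ∑ i, finrank k (N i) := by
  induction w generalizing N with
  | nil => left; simp
  | cons i w ih =>
    by_cases e : M.radAt i N = N
    · rcases ih hN with h | h
      · left
        intro x hx
        rcases List.mem_cons.1 hx with rfl | hx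
        · exact e
        · exact h x hx
      · right
        rw [radSeq, e]
        exact h
    · right
      rw [radSeq]
      refine lt_of_le_of_lt (exh_mono (radSeq_le (isSub_radAt hN i) w)) ?_
      refine Finset.sum_lt_sum (fun x _ => Submodule.finrank_mono (radAt_le hN i x))
        ⟨i, Finset.mem_univ _, ?_⟩
      apply Submodule.finrank_lt_finrank_of_lt
      refine lt_of_le_of_ne (radAt_le hN i i) (fun hne => e ?_)
      funext x
      by_cases hx : x = i
      · subst hx; exact hne
      · exact radAt_ne M hx N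

theorem exh_round (hN : M.IsSub N) :
    N = ⊥ ∨ ∑ i, finrank k (M.radSeq (List.finRange n) N i) < ∑ i, finrank k (N i) := by
  rcases exh_list hN (List.finRange n) with h | h
  · exact Or.inl (rad_fix hN fun i => h i (List.mem_finRange i))
  · exact Or.inr h

theorem exh_rounds (m : ℕ) (hN : M.IsSub N) (h : ∑ i, finrank k (N i) ≤ m) :
    M.radSeq (List.replicate m (List.finRange n)).flatten N = ⊥ := by
  induction m generalizing N with
  | zero =>
    show N = ⊥
    funext i
    have h0 : finrank k (N i) = 0 := by
      have := Finset.single_le_sum (f := fun i => finrank k (N i)) (fun _ _ => Nat.zero_le _)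
        (Finset.mem_univ i)
      omega
    exact Submodule.finrank_eq_zero.1 h0
  | succ m ih =>
    rw [List.replicate_succ, List.flatten_cons, radSeq_append]
    apply ih (isSub_radSeq hN _)
    rcases exh_round hN with e | e
    · have hle := exh_mono (radSeq_le hN (List.finRange n))
      have h0 : ∑ i, finrank k (N i) = 0 := by
        rw [e]
        apply Finset.sum_eq_zero
        intro i _
        exact finrank_bot k (V i)
      omega
    · omega

end PiRep

theorem PiMod.exh_k2Seq {k : Type} [Field k] {n : ℕ} {d : Fin n → ℕ} (M : PiMod k n d)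
    (i₀ : Fin n) : M.Exh (k2Seq n d i₀) := by
  show M.toRep.radSeq (List.replicate (∑ i, d i) (List.finRange n)).flatten
    (M.toRep.radAt i₀ ⊤) = ⊥
  apply PiRep.exh_rounds _ (PiRep.isSub_radAt M.toRep.isSub_top i₀)
  apply Finset.sum_le_sum
  intro i _
  refine (Submodule.finrank_le _).trans ?_
  rw [Module.finrank_fin_fun]

end Claimed.Agent.R282
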