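import Claimed.Agent.R282.K2.A.Lines

/-!
# Row 282, layer K2, package A3/A5: chains at one vertex, strings (leaves L-K2A-SHAPE, L-K2A-FLAG, L-K2A-STR: ALL DONE, no sorry in this file)

`k` finite with `q = Fintype.card k` elements, all `V i` finite.  Inputs: `K2/A/Cnt.lean` (`cnt_cons`, `cnt_append`, `cnt_concat`, `mem_steps`),
`K2/A/Rad.lean` (`step_iff`, `isSub_update`, `radAt_*`), `K2/A/Lines.lean` (`card_lines`).

PLAN.
L-K2A-SHAPE
* `cnt_shape` : induction on `w` generalizing `N`.  `cnt (i :: w) N N' ≠ 0` gives `N₁ ∈ steps i N` with `cnt w N₁ N' ≠ 0` (`Finset.sum_ne_zero` /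
  `Finset.exists_ne_zero_of_sum_ne_zero`); unfold `Step`; `List.count_cons`.
* `cnt_replicate_shape` : from `cnt_shape`: `N' x = N x` for `x ≠ j` (`Submodule.eq_of_le_of_finrank_eq`, `List.count_replicate`), so `N' = update N j (N' j)`;
  `rad ≤ N' j` since `(N x).map (a x j) = (N' x).map (a x j) ≤ N' j` for `x ≠ j`, `a_self` for `x = j`.
* `cnt_replicate_gt` : `c = 0` impossible; if `N` is not a submodule then `steps j N = ∅`; otherwise `cnt_replicate_shape` gives
  `finrank rad ≤ finrank R' = finrank (N j) - c`, contradiction with `topAt j N < c`.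
* `cnt_replicate_soc` : by `cnt_shape`-type facts `N` is a submodule (or `c = 0`, `N = N'`), `N x = N' x` for `x ≠ j`, so `N j ≤ socAt j N'`.
L-K2A-FLAG
* `cnt_flags` : induction on `c` generalizing `R'`.  `c = 0`: `R' = N j`, `Function.update_eq_self`, `cnt_nil_self`.
  `c + 1`: `List.replicate (c+1) j = List.replicate c j ++ [j]` (`List.replicate_succ'`), `cnt_concat`.  The `N₁` with `Step j N₁ (update N j R')` and
  `cnt (replicate c j) N N₁ ≠ 0` are exactly `update N j L`, `R' ≤ L ≤ N j`, `finrank L = finrank R' + 1` (`cnt_replicate_shape`; conversely `Step` holds by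
  `isSub_update`), each contributes `qfact q c` (induction hypothesis), and there are `qnum q (c+1)` of them (`card_lines R' (N j)`).
  Use `Finset.sum_subset`/`Finset.sum_filter` to drop the zero terms, `Finset.sum_const`, `Finset.card_bij` or `Nat.card_congr` with `L ↦ update N j L`.
* `cnt_replicate_top` : `N' = radAt j N`: `cnt_flags` with `R' = rad`.  Otherwise `cnt_replicate_shape` forces `R' = rad` by `finrank`.
L-K2A-STR
* `cnt_strWord_self`, `cnt_strWord_lex` : induction on `w` generalizing `N` (and `c`), `strWord`, `strFrom_cons`, `cnt_append`, then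
  `Finset.sum_eq_single (radAt j N)` with `cnt_replicate_top`, resp. `cnt_replicate_gt`.  Lex order: `List.cons_lt_cons_iff` (or `List.Lex` cases):
  `a :: l < b :: l' ↔ a < b ∨ a = b ∧ l < l'`.
-/

set_option autoImplicit false

namespace Claimed.Agent.R282

open Module

namespace PiRep

variable {k : Type} [Field k] [Fintype k] {n : ℕ} {V : Fin n → Type} [∀ i, AddCommGroup (V i)]
  [∀ i, Module k (V i)] [∀ i, Finite (V i)] {M : PiRep k n V} {N : ∀ i, Submodule k (V i)}

/-- shape of the end of a chain -/
theorem cnt_shape (hN : M.IsSub N) (w : List (Fin n)) (N' : ∀ i, Submodule k (V i))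
    (h : M.cnt w N N' ≠ 0) :
    M.IsSub N' ∧ N' ≤ N ∧ ∀ x, finrank k (N' x) + w.count x = finrank k (N x) := by
  induction w generalizing N with
  | nil =>
    have e : N = N' := by
      by_contra hne
      exact h (cnt_nil_ne M hne)
    subst e
    exact ⟨hN, le_rfl, fun x => by simp⟩
  | cons i w ih =>
    rw [cnt_cons] at h
    obtain ⟨N₁, hN₁, hne⟩ := Finset.exists_ne_zero_of_sum_ne_zero h
    obtain ⟨-, s1, s2, s3, s4⟩ := M.mem_steps.1 hN₁
    obtain ⟨t1, t2, t3⟩ := ih s1 hne
    refine ⟨t1, t2.trans s2, fun x => ?_⟩
    have h3 := t3 x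
    rw [List.count_cons]
    by_cases hx : x = i
    · subst hx
      simp only [beq_self_eq_true, if_true]
      omega
    · rw [s3 x hx] at h3
      have hb : (i == x) = false := by simpa using Ne.symm hx
      simp only [hb]
      simpa using h3

/-- a chain of positive length starts at a submodule -/
theorem cnt_isSub (i : Fin n) (w : List (Fin n)) (N' : ∀ i, Submodule k (V i))
    (h : M.cnt (i :: w) N N' ≠ 0) : M.IsSub N := by
  rw [cnt_cons] at h
  obtain ⟨N₁, hN₁, -⟩ := Finset.exists_ne_zero_of_sum_ne_zero h
  exact (M.mem_steps.1 hN₁).1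

theorem cnt_replicate_shape (hN : M.IsSub N) (j : Fin n) (c : ℕ) (N' : ∀ i, Submodule k (V i))
    (h : M.cnt (List.replicate c j) N N' ≠ 0) :
    ∃ R' : Submodule k (V j), N' = Function.update N j R' ∧ M.radAt j N j ≤ R' ∧ R' ≤ N j ∧
      finrank k R' + c = finrank k (N j) := by
  obtain ⟨h1, h2, h3⟩ := cnt_shape hN _ N' h
  have hoff : ∀ x, x ≠ j → N' x = N x := by
    intro x hx
    have h4 := h3 x
    rw [List.count_replicate] at h4
    have hb : (j == x) = false := by simpa using Ne.symm hx
    simp only [hb] at h4
    exact Submodule.eq_of_le_of_finrank_eq (h2 x) (by simpa using h4)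
  refine ⟨N' j, ?_, ?_, h2 j, ?_⟩
  · funext x
    by_cases hx : x = j
    · subst hx; rw [Function.update_self]
    · rw [Function.update_of_ne hx, hoff x hx]
  · rw [radAt_same]
    refine iSup_le fun x => ?_
    by_cases hx : x = j
    · subst hx
      rw [a_self, Submodule.map_zero]
      exact bot_le
    · rw [← hoff x hx]
      exact h1 x j
  · have h4 := h3 j
    simpa [List.count_replicate] using h4

/-- A3, tops -/
theorem cnt_replicate_gt (j : Fin n) (c : ℕ) (hc : M.topAt j N < c)
    (N' : ∀ i, Submodule k (V i)) : M.cnt (List.replicate c j) N N' = 0 := by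
  by_contra h
  obtain ⟨c', rfl⟩ : ∃ c', c = c' + 1 := ⟨c - 1, by omega⟩
  have hN : M.IsSub N := cnt_isSub j (List.replicate c' j) N' (by rwa [List.replicate_succ] at h)
  obtain ⟨R', -, h1, h2, h3⟩ := cnt_replicate_shape hN j _ N' h
  have h4 := Submodule.finrank_mono h1
  unfold topAt at hc
  omega

/-- A3, socles -/
theorem cnt_replicate_soc (j : Fin n) (c : ℕ) (N' : ∀ i, Submodule k (V i)) (hN' : M.IsSub N')
    (hc : finrank k (M.socAt j N') < finrank k (N' j) + c) :
    M.cnt (List.replicate c j) N N' = 0 := by
  by_contra h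
  have hN : M.IsSub N := by
    cases c with
    | zero =>
      have e : N = N' := by
        by_contra hne
        exact h (cnt_nil_ne M hne)
      rw [e]; exact hN'
    | succ c => exact cnt_isSub j (List.replicate c j) N' (by rwa [List.replicate_succ] at h)
  obtain ⟨R', e, h1, h2, h3⟩ := cnt_replicate_shape hN j c N' h
  have hle : N j ≤ M.socAt j N' := by
    unfold socAt
    refine le_iInf fun x => ?_
    rw [← Submodule.map_le_iff_le_comap]
    by_cases hx : x = j
    · subst hx
      rw [a_self, Submodule.map_zero]
      exact bot_le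
    · rw [e, Function.update_of_ne hx]
      exact hN j x
  have h4 := Submodule.finrank_mono hle
  have e2 : N' j = R' := by rw [e, Function.update_self]
  rw [e2] at hc
  omega

/-- flags -/
theorem cnt_flags (hN : M.IsSub N) (j : Fin n) (c : ℕ) (R' : Submodule k (V j))
    (h1 : M.radAt j N j ≤ R') (h2 : R' ≤ N j) (h3 : finrank k R' + c = finrank k (N j)) :
    M.cnt (List.replicate c j) N (Function.update N j R') = qfact (Fintype.card k) c := by
  classical
  induction c generalizing R' with
  | zero =>
    have e : R' = N j := Submodule.eq_of_le_of_finrank_eq h2 (by simpa using h3)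
    subst e
    rw [Function.update_eq_self]
    exact cnt_nil_self M N
  | succ c ih =>
    rw [List.replicate_succ', cnt_concat]
    set T : Finset (Submodule k (V j)) :=
      (Set.toFinite {L : Submodule k (V j) | R' ≤ L ∧ L ≤ N j ∧
        finrank k L = finrank k R' + 1}).toFinset with hT
    have hmemT : ∀ L, L ∈ T ↔ (R' ≤ L ∧ L ≤ N j ∧ finrank k L = finrank k R' + 1) := by
      intro L; simp [hT]
    have hcard : T.card = qnum (Fintype.card k) (c + 1) := by
      rw [← card_lines R' (N j) h2 (c + 1) h3, hT, ← Set.ncard_eq_toFinset_card,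
        ← Nat.card_coe_set_eq]
      rfl
    have hsub : T.image (fun L => Function.update N j L) ⊆
        (fams k V).filter (fun N₁ => M.Step j N₁ (Function.update N j R')) := by
      intro N₁ hN₁
      obtain ⟨L, hL, rfl⟩ := Finset.mem_image.1 hN₁
      obtain ⟨l1, l2, l3⟩ := (hmemT L).1 hL
      refine Finset.mem_filter.2 ⟨mem_fams _, isSub_update hN j L (h1.trans l1) l2,
        isSub_update hN j R' h1 h2, ?_, ?_, ?_⟩
      · intro x
        by_cases hx : x = j
        · subst hx; simpa using l1
        · simp [Function.update_of_ne hx]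
      · intro x hx
        simp [Function.update_of_ne hx]
      · rw [Function.update_self, Function.update_self, l3]
    rw [← Finset.sum_subset hsub, Finset.sum_image]
    · rw [Finset.sum_congr rfl (g := fun _ => qfact (Fintype.card k) c), Finset.sum_const, hcard,
        smul_eq_mul, qfact]
      intro L hL
      obtain ⟨l1, l2, l3⟩ := (hmemT L).1 hL
      exact ih L (h1.trans l1) l2 (by omega)
    · intro x _ y _ hxy
      have := congrFun hxy j
      simpa using this
    · intro N₁ hN₁ hni
      by_contra hne
      obtain ⟨R'', e, r1, r2, r3⟩ := cnt_replicate_shape hN j c N₁ hne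
      obtain ⟨-, -, s2, -, s4⟩ := (Finset.mem_filter.1 hN₁).2
      apply hni
      refine Finset.mem_image.2 ⟨R'', (hmemT R'').2 ⟨?_, r2, ?_⟩, e.symm⟩
      · have := s2 j
        rw [e] at this
        simpa using this
      · rw [e, Function.update_self, Function.update_self] at s4
        omega

open Classical in
/-- A5, one block -/
theorem cnt_replicate_top (hN : M.IsSub N) (j : Fin n) (N' : ∀ i, Submodule k (V i)) :
    M.cnt (List.replicate (M.topAt j N) j) N N'
      = if N' = M.radAt j N then qfact (Fintype.card k) (M.topAt j N) else 0 := by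
  have hle : finrank k (M.radAt j N j) ≤ finrank k (N j) :=
    Submodule.finrank_mono (radAt_le hN j j)
  have hupd : Function.update N j (M.radAt j N j) = M.radAt j N := by
    rw [radAt_same]; rfl
  split_ifs with e
  · have h := cnt_flags hN j (M.topAt j N) (M.radAt j N j) le_rfl (radAt_le hN j j)
      (by unfold topAt; omega)
    rw [hupd] at h
    rw [e, h]
  · by_contra h
    obtain ⟨R', e', h1, h2, h3⟩ := cnt_replicate_shape hN j _ N' h
    apply e
    rw [e', ← hupd]
    congr 1
    exact (Submodule.eq_of_le_of_finrank_eq h1 (by unfold topAt at h3; omega)).symm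

/-- A5, diagonal -/
theorem cnt_strWord_self (hN : M.IsSub N) (w : List (Fin n)) :
    M.cnt (strWord w (M.strFrom w N)) N (M.radSeq w N)
      = ((M.strFrom w N).map (qfact (Fintype.card k))).prod := by
  classical
  induction w generalizing N with
  | nil =>
    show M.cnt [] N N = _
    rw [cnt_nil_self]
    rfl
  | cons j w ih =>
    rw [strFrom_cons, strWord, radSeq, cnt_append, List.map_cons, List.prod_cons,
      Finset.sum_eq_single (M.radAt j N)]
    · rw [cnt_replicate_top hN, if_pos rfl, ih (isSub_radAt hN j)]
    · intro b _ hb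
      rw [cnt_replicate_top hN, if_neg hb, zero_mul]
    · intro h
      exact absurd (mem_fams _) h

/-- A5, triangularity -/
theorem cnt_strWord_lex (hN : M.IsSub N) (w : List (Fin n)) (c : List ℕ)
    (hlen : c.length = w.length) (hlt : M.strFrom w N < c) (N' : ∀ i, Submodule k (V i)) :
    M.cnt (strWord w c) N N' = 0 := by
  classical
  induction w generalizing N c with
  | nil =>
    have e : c = [] := List.length_eq_zero_iff.1 hlen
    subst e
    exact absurd hlt (List.lt_irrefl _)
  | cons j w ih =>
    obtain ⟨c₀, cs, rfl⟩ : ∃ c₀ cs, c = c₀ :: cs := by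
      cases c with
      | nil => simp at hlen
      | cons a b => exact ⟨_, _, rfl⟩
    rw [strFrom_cons, List.cons_lt_cons_iff] at hlt
    rw [strWord, cnt_append]
    apply Finset.sum_eq_zero
    intro N₁ _
    rcases hlt with h | ⟨h, h'⟩
    · rw [cnt_replicate_gt j c₀ h, zero_mul]
    · subst h
      rw [cnt_replicate_top hN]
      split_ifs with e
      · subst e
        rw [ih (isSub_radAt hN j) cs (by simpa using hlen) h', mul_zero]
      · rw [zero_mul]

end PiRep

end Claimed.Agent.R282
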