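import Claimed.Agent.R282.K2.A.Rad

/-!
# Row 282, layer K2, package A: counting subspaces of relative dimension one (leaf L-K2A-LINES: DONE, no sorry)

`k` finite field with `q` elements, `W` a finite vector space, `P ≤ Q ≤ W`, `dim Q = dim P + c`.
`card_lines` : the number of `L` with `P ≤ L ≤ Q`, `dim L = dim P + 1` is `qnum q c = 1 + q + ... + q^(c-1)`.

PLAN (either one).
(a) Double count the pairs `(L, x)`, `x ∈ L \ P`:  every `x ∈ Q \ P` lies in exactly one `L` (`L = P ⊔ span {x}`; `finrank` by
    `Submodule.finrank_lt_finrank_of_lt` + `finrank_span_singleton` / `Submodule.finrank_add_le_finrank_add_finrank`), and each `L` contains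
    `q^(p+1) - q^p` such `x` (`Module.card_eq_pow_finrank`).  So `card * (q^(p+1) - q^p) = q^(p+c) - q^p`; `Nat.geomSum_eq` / `geom_sum_mul`.
(b) `Projectivization.card_of_finrank k (Q ⧸ P.comap Q.subtype)` and the bijection `L ↦ image of L` (`Submodule.comapMkQRelIso`,
    `Projectivization.submodule`, `Projectivization.equivSubmodule`).
`lines_finset` is the same statement for a `Finset.filter`; `card_lines_two` is `c = 2`.
-/

set_option autoImplicit false

namespace Claimed.Agent.R282

open Module

variable {k : Type} [Field k] [Fintype k] {W : Type} [AddCommGroup W] [Module k W] [Finite W]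

theorem card_lines (P Q : Submodule k W) (hPQ : P ≤ Q) (c : ℕ)
    (hc : finrank k P + c = finrank k Q) :
    Nat.card {L : Submodule k W // P ≤ L ∧ L ≤ Q ∧ finrank k L = finrank k P + 1}
      = qnum (Fintype.card k) c := by
  classical
  have : Fintype W := Fintype.ofFinite W
  have : Fintype (Submodule k W) := Fintype.ofFinite _
  obtain ⟨x, hx⟩ : ∃ x, Fintype.card k = x + 1 :=
    ⟨Fintype.card k - 1, by have := Fintype.card_pos (α := k); omega⟩
  have hx1 : 1 ≤ x := by have := Fintype.one_lt_card (α := k); omega
  set p := finrank k P with hp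
  set LL : Finset (Submodule k W) :=
    Finset.univ.filter (fun L => P ≤ L ∧ L ≤ Q ∧ finrank k L = p + 1) with hLL
  set X : Finset W := Finset.univ.filter (fun y => y ∈ Q ∧ y ∉ P) with hX
  have hcardL : Nat.card {L : Submodule k W // P ≤ L ∧ L ≤ Q ∧ finrank k L = p + 1} = LL.card := by
    rw [Nat.card_eq_fintype_card, Fintype.card_subtype]
  have hsz : ∀ S : Submodule k W,
      (Finset.univ.filter (fun y => y ∈ S)).card = (x + 1) ^ finrank k S := by
    intro S
    rw [← Fintype.card_subtype, ← hx]
    exact Module.card_eq_pow_finrank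
  -- difference of two subspaces
  have hdiff : ∀ S T : Submodule k W, S ≤ T →
      (Finset.univ.filter (fun y => y ∈ T ∧ y ∉ S)).card + (x + 1) ^ finrank k S
        = (x + 1) ^ finrank k T := by
    intro S T hST
    rw [← hsz S, ← hsz T, ← Finset.card_union_of_disjoint]
    · congr 1
      ext y
      simp only [Finset.mem_union, Finset.mem_filter, Finset.mem_univ, true_and]
      constructor
      · rintro (⟨h, -⟩ | h)
        · exact h
        · exact hST h
      · intro h
        by_cases hy : y ∈ S
        · exact Or.inr hy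
        · exact Or.inl ⟨h, hy⟩
    · rw [Finset.disjoint_left]
      intro y hy hy'
      simp only [Finset.mem_filter, Finset.mem_univ, true_and] at hy hy'
      exact hy.2 hy'
  have hXc : X.card + (x + 1) ^ p = (x + 1) ^ (p + c) := by
    rw [hc]; exact hdiff P Q hPQ
  have hmap : ∀ y ∈ X, P ⊔ Submodule.span k {y} ∈ LL := by
    intro y hy
    simp only [hX, Finset.mem_filter, Finset.mem_univ, true_and] at hy
    simp only [hLL, Finset.mem_filter, Finset.mem_univ, true_and]
    refine ⟨le_sup_left, sup_le hPQ ?_, Submodule.finrank_sup_span_singleton hy.2⟩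
    rw [Submodule.span_singleton_le_iff_mem]
    exact hy.1
  have hfib : ∀ L ∈ LL, (X.filter (fun y => P ⊔ Submodule.span k {y} = L)).card + (x + 1) ^ p
      = (x + 1) ^ (p + 1) := by
    intro L hL
    simp only [hLL, Finset.mem_filter, Finset.mem_univ, true_and] at hL
    obtain ⟨l1, l2, l3⟩ := hL
    rw [← l3, ← hdiff P L l1]
    congr 2
    ext y
    simp only [hX, Finset.mem_filter, Finset.mem_univ, true_and]
    constructor
    · rintro ⟨⟨h1, h2⟩, h3⟩
      refine ⟨?_, h2⟩
      rw [← h3]
      exact Submodule.mem_sup_right (Submodule.mem_span_singleton_self y)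
    · rintro ⟨h1, h2⟩
      refine ⟨⟨l2 h1, h2⟩, ?_⟩
      apply Submodule.eq_of_le_of_finrank_eq
      · exact sup_le l1 (by rw [Submodule.span_singleton_le_iff_mem]; exact h1)
      · rw [Submodule.finrank_sup_span_singleton h2, l3]
  have hsum := Finset.card_eq_sum_card_fiberwise (s := X) (t := LL)
    (f := fun y => P ⊔ Submodule.span k {y}) hmap
  -- each fibre has `x * (x+1)^p` elements
  have hfib' : ∀ L ∈ LL, (X.filter (fun y => P ⊔ Submodule.span k {y} = L)).card
      = x * (x + 1) ^ p := by
    intro L hL
    have := hfib L hL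
    rw [pow_succ] at this
    nlinarith [this]
  rw [Finset.sum_congr rfl hfib', Finset.sum_const, smul_eq_mul] at hsum
  rw [hcardL, hx]
  have hg := geom_sum_mul_add x c
  have hpos : 0 < x * (x + 1) ^ p := by positivity
  apply Nat.eq_of_mul_eq_mul_right hpos
  rw [← hsum]
  unfold qnum
  have h2 : (∑ s ∈ Finset.range c, (x + 1) ^ s) * (x * (x + 1) ^ p) + (x + 1) ^ p
      = (x + 1) ^ (p + c) := by
    rw [pow_add, ← hg]; ring
  omega

theorem card_lines_two (P Q : Submodule k W) (hPQ : P ≤ Q)
    (hc : finrank k P + 2 = finrank k Q) :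
    Nat.card {L : Submodule k W // P ≤ L ∧ L ≤ Q ∧ finrank k L = finrank k P + 1}
      = Fintype.card k + 1 := by
  rw [card_lines P Q hPQ 2 hc]
  simp [qnum, Finset.sum_range_succ, add_comm]

end Claimed.Agent.R282
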