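import Claimed.Agent.R282.K2.A.Cnt

/-!
# Row 282, layer K2, package A: elementary facts on submodules, `radAt`, `radSeq`, strings (leaf L-K2A-RAD: DONE, no sorry)

ANY field `k`; finite dimension only where `finrank` is compared.  All proofs are short (5-40 lines each).

PLAN.
* `adjD_irrefl`, `adjD_symm` : `unfold adjD; omega`.   `a_self` : `M.zero i i (adjD_irrefl i)`.
* `radAt_same`, `radAt_ne` : `Function.update_self`, `Function.update_of_ne`.
* `radAt_le` : at `i` use `iSup_le` and `hN j i`; elsewhere equality.
* `isSub_update` : `IsSub (update N i L)` if `rad ≤ L ≤ N i`.  Arrow `x → y`:  `x = i = y`: `a_self`, `Submodule.map_zero`.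
  `x = i ≠ y`: `L.map ≤ (N i).map ≤ N y`.  `x ≠ i = y`: `(N x).map (a x i) ≤ ⨆ ≤ L` (`le_iSup`).  `x, y ≠ i`: `hN`.
* `isSub_radAt` = `isSub_update` with `L = rad`.   `isSub_radSeq`, `radSeq_le` : induction on `w` (generalizing `N`).
* `step_iff` : `→` take `L = N₁ i`; `N₁ = update N i (N₁ i)` by `funext` + the 4th component of `Step`; `rad ≤ N₁ i` because
  `(N j).map (a j i) = (N₁ j).map (a j i) ≤ N₁ i` for `j ≠ i` and `a_self` for `j = i`.  `←` by `isSub_update`.
* `count_strWord` : induction on `w` generalizing `N`; `List.count_append`, `List.count_replicate`;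
  `finrank (radAt j N j) ≤ finrank (N j)` by `Submodule.finrank_mono (radAt_le ..)`.
* `top_eq` : `Submodule.map_top`, `Submodule.finrank_quotient_add_finrank`, `finrank_top`.
* `soc_eq` : `Submodule.comap_bot`.
-/

set_option autoImplicit false

namespace Claimed.Agent.R282

open Module

theorem adjD_irrefl {n : ℕ} (i : Fin n) : ¬ adjD n i i := by
  unfold adjD; omega

theorem adjD_symm {n : ℕ} {i j : Fin n} (h : adjD n i j) : adjD n j i := by
  unfold adjD at h ⊢; tauto

namespace PiRep

variable {k : Type} [Field k] {n : ℕ} {V : Fin n → Type} [∀ i, AddCommGroup (V i)]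
  [∀ i, Module k (V i)] (M : PiRep k n V)

theorem a_self (i : Fin n) : M.a i i = 0 := M.zero i i (adjD_irrefl i)

theorem radAt_same (i : Fin n) (N : ∀ i, Submodule k (V i)) :
    M.radAt i N i = ⨆ j, (N j).map (M.a j i) := by
  simp [radAt]

theorem radAt_ne {i j : Fin n} (h : j ≠ i) (N : ∀ i, Submodule k (V i)) :
    M.radAt i N j = N j := by
  simp [radAt, Function.update_of_ne h]

theorem isSub_top : M.IsSub ⊤ := fun _ _ => le_top

theorem isSub_bot : M.IsSub ⊥ := fun i j => by simp

variable {M} {N : ∀ i, Submodule k (V i)}

theorem radAt_le (hN : M.IsSub N) (i : Fin n) : M.radAt i N ≤ N := by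
  intro x
  by_cases hx : x = i
  · subst hx
    rw [radAt_same]
    exact iSup_le fun j => hN j x
  · rw [radAt_ne M hx]

theorem isSub_update (hN : M.IsSub N) (i : Fin n) (L : Submodule k (V i))
    (h1 : M.radAt i N i ≤ L) (h2 : L ≤ N i) : M.IsSub (Function.update N i L) := by
  intro x y
  by_cases hx : x = i
  · subst hx
    by_cases hy : y = x
    · subst hy
      rw [a_self, Submodule.map_zero]
      exact bot_le
    · rw [Function.update_self, Function.update_of_ne hy]
      exact (Submodule.map_mono h2).trans (hN x y)
  · rw [Function.update_of_ne hx]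
    by_cases hy : y = i
    · subst hy
      rw [Function.update_self]
      refine le_trans ?_ h1
      rw [radAt_same]
      exact le_iSup (fun j => (N j).map (M.a j y)) x
    · rw [Function.update_of_ne hy]
      exact hN x y

theorem isSub_radAt (hN : M.IsSub N) (i : Fin n) : M.IsSub (M.radAt i N) := by
  have h := isSub_update hN i (M.radAt i N i) le_rfl (radAt_le hN i i)
  have e : Function.update N i (M.radAt i N i) = M.radAt i N := by
    rw [radAt_same]; rfl
  rwa [e] at h

theorem isSub_radSeq (hN : M.IsSub N) (w : List (Fin n)) : M.IsSub (M.radSeq w N) := by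
  induction w generalizing N with
  | nil => exact hN
  | cons i w ih => exact ih (isSub_radAt hN i)

theorem radSeq_le (hN : M.IsSub N) (w : List (Fin n)) : M.radSeq w N ≤ N := by
  induction w generalizing N with
  | nil => exact le_rfl
  | cons i w ih => exact (ih (isSub_radAt hN i)).trans (radAt_le hN i)

/-- the steps from a submodule `N` at `i` are the hyperplanes of `N i` which contain the radical -/
theorem step_iff (hN : M.IsSub N) (i : Fin n) (N₁ : ∀ i, Submodule k (V i)) :
    M.Step i N N₁ ↔ ∃ L : Submodule k (V i), N₁ = Function.update N i L ∧ M.radAt i N i ≤ L ∧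
      L ≤ N i ∧ finrank k L + 1 = finrank k (N i) := by
  constructor
  · rintro ⟨-, h1, h2, h3, h4⟩
    refine ⟨N₁ i, ?_, ?_, h2 i, h4⟩
    · funext x
      by_cases hx : x = i
      · subst hx; rw [Function.update_self]
      · rw [Function.update_of_ne hx, h3 x hx]
    · rw [radAt_same]
      refine iSup_le fun j => ?_
      by_cases hj : j = i
      · subst hj
        rw [a_self, Submodule.map_zero]
        exact bot_le
      · rw [← h3 j hj]
        exact h1 j i
  · rintro ⟨L, rfl, h1, h2, h3⟩
    refine ⟨hN, isSub_update hN i L h1 h2, ?_, ?_, ?_⟩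
    · intro x
      by_cases hx : x = i
      · subst hx; rw [Function.update_self]; exact h2
      · rw [Function.update_of_ne hx]
    · intro j hj
      rw [Function.update_of_ne hj]
    · rw [Function.update_self]; exact h3

variable (M)

theorem strFrom_length (w : List (Fin n)) (N : ∀ i, Submodule k (V i)) :
    (M.strFrom w N).length = w.length := by
  induction w generalizing N with
  | nil => rfl
  | cons i w ih => simp [strFrom, ih]

theorem strFrom_cons (i : Fin n) (w : List (Fin n)) (N : ∀ i, Submodule k (V i)) :
    M.strFrom (i :: w) N = M.topAt i N :: M.strFrom w (M.radAt i N) := rfl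

variable {M}

/-- entries of a string are bounded by the dimensions -/
theorem strFrom_le [∀ i, Module.Finite k (V i)] (w : List (Fin n)) (N : ∀ i, Submodule k (V i))
    (c : ℕ) (hc : c ∈ M.strFrom w N) : ∃ i, c ≤ finrank k (V i) := by
  induction w generalizing N with
  | nil => simp [strFrom] at hc
  | cons i w ih =>
    rw [strFrom, List.mem_cons] at hc
    rcases hc with rfl | hc
    · exact ⟨i, (Nat.sub_le _ _).trans (Submodule.finrank_le _)⟩
    · exact ih _ hc

/-- the degree of the word of a string -/
theorem count_strWord [∀ i, Module.Finite k (V i)] (hN : M.IsSub N) (w : List (Fin n))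
    (i : Fin n) :
    (strWord w (M.strFrom w N)).count i + finrank k (M.radSeq w N i) = finrank k (N i) := by
  induction w generalizing N with
  | nil =>
    show List.count i [] + finrank k (N i) = finrank k (N i)
    simp
  | cons j w ih =>
    have h := ih (isSub_radAt hN j)
    rw [strFrom, strWord, radSeq, List.count_append, List.count_replicate]
    have hle : finrank k (M.radAt j N j) ≤ finrank k (N j) :=
      Submodule.finrank_mono (radAt_le hN j j)
    by_cases hij : i = j
    · subst hij
      simp only [beq_self_eq_true, if_true]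
      omega
    · rw [radAt_ne M hij] at h
      have : (j == i) = false := by simpa using Ne.symm hij
      simp only [this]
      simpa using h

end PiRep

theorem PiMod.top_eq {k : Type} [Field k] {n : ℕ} {d : Fin n → ℕ} (M : PiMod k n d) (i : Fin n) :
    M.top i = M.toRep.topAt i ⊤ := by
  unfold PiMod.top PiRep.topAt
  rw [PiRep.radAt_same]
  have e : (⨆ j, ((⊤ : ∀ i, Submodule k (Fin (d i) → k)) j).map (M.toRep.a j i))
      = ⨆ j, LinearMap.range (Matrix.mulVecLin (M.a j i)) := by
    congr 1
    funext j
    exact Submodule.map_top _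
  have key : finrank k ((Fin (d i) → k) ⧸ (⨆ j, LinearMap.range (Matrix.mulVecLin (M.a j i))))
      = finrank k (Fin (d i) → k)
        - finrank k (⨆ j, LinearMap.range (Matrix.mulVecLin (M.a j i)) :
            Submodule k (Fin (d i) → k)) := by
    have h := Submodule.finrank_quotient_add_finrank
      (⨆ j, LinearMap.range (Matrix.mulVecLin (M.a j i)))
    omega
  rw [key]
  congr 1
  · exact (finrank_top k _).symm
  · rw [e]

theorem PiMod.soc_eq {k : Type} [Field k] {n : ℕ} {d : Fin n → ℕ} (M : PiMod k n d) (i : Fin n) :
    M.soc i = finrank k (M.toRep.socAt i ⊥) := by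
  unfold PiMod.soc PiRep.socAt
  rfl

end Claimed.Agent.R282
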