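import Claimed.Agent.R282.K2.A.Rad

/-!
# Row 282, layer K2, package A4: a nonzero module has a nonzero socle (leaf L-K2A-SOCLE: DONE, no sorry)

ANY field, ANY vector spaces (no finiteness).  Everything is ELEMENTWISE: no powers of operators, no dimension.
A SOCLE VECTOR is `x : V i`, `x ≠ 0`, `∀ j, M.a i j x = 0`  (`HasSoc M`).

Vertices (0-based): trunk `0 - 1 - ... - c`, `c = n - 3`; the leaves `n-2`, `n-1` are joined to `c` only.
`i` is a trunk vertex iff `i.val + 3 ≤ n`.   "up" = to a larger vertex, "down" = to a smaller vertex.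
The relation at `i`, applied to `z` (`rel_apply`):  `∑ j, ε_j • a j i (a i j z) = 0`, `ε_j = 1` for `j < i`, `-1` otherwise.

PLAN (each step 30-80 lines; the only work is `Finset.sum_eq_single` / `Fin` arithmetic, `adjD` by `unfold adjD; omega`).
* `soc_desc` (DESCENT) : `z ≠ 0` at a trunk vertex `s`, killed by all up arrows  ⇒ `HasSoc`.
  Induction on `s`.  `s = 0`: no down arrows, `z` is a socle vector.  `s + 1`: in the relation at `s+1` all terms with `j > s+1` vanish
  by hypothesis, `j = s+1` by `a_self`, `j < s+1`, `j ≠ s` by `M.zero`; so `a s (s+1) (a (s+1) s z) = 0`.  If `z' = a (s+1) s z = 0` then `z`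
  is a socle vector.  Otherwise `z'` is killed by all up arrows of `s` (the only up neighbour of `s` is `s+1`, as `s + 4 ≤ n`): induction.
* `soc_low` (Q) : `V s ≠ 0`, `s` trunk ⇒ `HasSoc` or `∃ z' ≠ 0` at `s` with `∀ j < s, a j s (a s j z') = 0`.
  Induction on `s`.  `s = 0`: vacuous.  `s + 1`: let `z ≠ 0` at `s+1`, `v = a (s+1) s`, `u = a s (s+1)`.  If `v z = 0` take `z' = z`
  (for `j < s+1`, `j ≠ s` use `M.zero`).  Otherwise apply the induction hypothesis to `v z`: get `w ≠ 0` at `s` with all lower terms `0`;
  the relation at `s` gives `v (u w) = 0` (the only up neighbour of `s` is `s+1`).  If `u w = 0`: `soc_desc` at `s`.  Otherwise `z' = u w`.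
* `soc_fork` : `V c ≠ 0` (`c.val + 3 = n`) ⇒ `HasSoc`.  By `soc_low` get `z' ≠ 0` with vanishing lower terms; with `p = n-2`, `r = n-1`,
  `α = a p c ∘ a c p`, `β = a r c ∘ a c r` the relation at `c` gives `α z' + β z' = 0`; the relations at `p`, `r` give
  `a c p (a p c x) = 0`, `a c r (a r c x) = 0`, so `α α = 0 = β β`.  Put `y = α z'` if this is `≠ 0`, else `y = z'`: then `y ≠ 0`, `α y = 0`, `β y = 0`
  (`β α z' = - β β z'`).  If `a c p y ≠ 0` it is a socle vector at `p` (only neighbour `c`); same for `r`; otherwise `soc_desc` at `c`.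
* `soc_asc` : `V s ≠ 0`, `s` trunk ⇒ `HasSoc`.  Induction on `n - 3 - s`: `s = c`: `soc_fork`.  `s < c`: if `a s (s+1) x = 0` then `soc_desc`, else go up.
* `exists_socle` : `n ≤ 2`: no arrows.  `i` trunk: `soc_asc`.  `i` a leaf: if `a i c x = 0` then `x` is a socle vector, else `soc_fork`.
-/

set_option autoImplicit false

namespace Claimed.Agent.R282

namespace PiRep

variable {k : Type} [Field k] {n : ℕ} {V : Fin n → Type} [∀ i, AddCommGroup (V i)]
  [∀ i, Module k (V i)] (M : PiRep k n V)

/-- there is a socle vector -/
def HasSoc : Prop := ∃ (i : Fin n) (x : V i), x ≠ 0 ∧ ∀ j, M.a i j x = 0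

theorem rel_apply (i : Fin n) (z : V i) :
    ∑ j, (if j < i then (1 : k) else -1) • M.a j i (M.a i j z) = 0 := by
  have h := congrArg (fun f : V i →ₗ[k] V i => f z) (M.rel i)
  simpa only [LinearMap.sum_apply, LinearMap.smul_apply, LinearMap.comp_apply,
    LinearMap.zero_apply] using h

theorem soc_desc (i : Fin n) (hi : i.val + 3 ≤ n) (z : V i) (hz : z ≠ 0)
    (hup : ∀ j : Fin n, i.val < j.val → M.a i j z = 0) : M.HasSoc := by
  induction hs : i.val generalizing i with
  | zero =>
    refine ⟨i, z, hz, fun j => ?_⟩
    by_cases hj : i.val < j.val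
    · exact hup j hj
    · have e : j = i := Fin.ext (by omega)
      rw [e, M.a_self]; rfl
  | succ s ih =>
    let i' : Fin n := ⟨s, by omega⟩
    have hi' : i'.val = s := rfl
    have hrel := M.rel_apply i z
    rw [Finset.sum_eq_single i'] at hrel
    · have hlt : i' < i := by rw [Fin.lt_def]; omega
      rw [if_pos hlt, one_smul] at hrel
      by_cases hz' : M.a i i' z = 0
      · refine ⟨i, z, hz, fun j => ?_⟩
        rcases lt_trichotomy j.val i.val with h | h | h
        · by_cases hj : j = i'
          · rw [hj]; exact hz'
          · have hj' : j.val ≠ s := fun e => hj (Fin.ext e)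
            rw [M.zero i j (by unfold adjD; omega)]; rfl
        · rw [show j = i from Fin.ext h, M.a_self]; rfl
        · exact hup j h
      · refine ih i' (by omega) (M.a i i' z) hz' (fun j hj => ?_) hi'
        by_cases hji : j = i
        · rw [hji]; exact hrel
        · have hne : j.val ≠ i.val := fun e => hji (Fin.ext e)
          rw [M.zero i' j (by unfold adjD; omega)]; rfl
    · intro j _ hj
      have hj' : j.val ≠ s := fun e => hj (Fin.ext e)
      rcases lt_trichotomy j.val i.val with h | h | h
      · rw [M.zero i j (by unfold adjD; omega)]; simp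
      · rw [show j = i from Fin.ext h, M.a_self]; simp
      · rw [hup j h]; simp
    · intro h; exact absurd (Finset.mem_univ _) h

theorem soc_low (i : Fin n) (hi : i.val + 3 ≤ n) (z : V i) (hz : z ≠ 0) :
    M.HasSoc ∨ ∃ z' : V i, z' ≠ 0 ∧
      ∀ j : Fin n, j.val < i.val → M.a j i (M.a i j z') = 0 := by
  induction hs : i.val generalizing i with
  | zero => exact Or.inr ⟨z, hz, fun j hj => by omega⟩
  | succ s ih =>
    let i' : Fin n := ⟨s, by omega⟩
    have hi' : i'.val = s := rfl
    by_cases hv : M.a i i' z = 0
    · refine Or.inr ⟨z, hz, fun j hj => ?_⟩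
      by_cases hji : j = i'
      · rw [hji, hv, map_zero]
      · have hne : j.val ≠ s := fun e => hji (Fin.ext e)
        rw [M.zero i j (by unfold adjD; omega)]; simp
    · rcases ih i' (by omega) (M.a i i' z) hv hi' with h | ⟨w, hw, hlow⟩
      · exact Or.inl h
      · have hrel := M.rel_apply i' w
        rw [Finset.sum_eq_single i] at hrel
        · have hnlt : ¬ i < i' := by rw [Fin.lt_def]; omega
          rw [if_neg hnlt, neg_smul, one_smul, neg_eq_zero] at hrel
          by_cases hu : M.a i' i w = 0
          · left
            refine M.soc_desc i' (by omega) w hw (fun j hj => ?_)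
            by_cases hji : j = i
            · rw [hji]; exact hu
            · have hne : j.val ≠ i.val := fun e => hji (Fin.ext e)
              rw [M.zero i' j (by unfold adjD; omega)]; rfl
          · right
            refine ⟨M.a i' i w, hu, fun j hj => ?_⟩
            by_cases hji : j = i'
            · rw [hji, hrel, map_zero]
            · have hne : j.val ≠ s := fun e => hji (Fin.ext e)
              rw [M.zero i j (by unfold adjD; omega)]; simp
        · intro j _ hj
          have hne : j.val ≠ i.val := fun e => hj (Fin.ext e)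
          rcases lt_trichotomy j.val s with h | h | h
          · rw [hlow j (by omega)]; simp
          · rw [show j = i' from Fin.ext h, M.a_self]; simp
          · rw [M.zero i' j (by unfold adjD; omega)]; simp
        · intro h; exact absurd (Finset.mem_univ _) h

theorem soc_fork (c : Fin n) (hc : c.val + 3 = n) (z : V c) (hz : z ≠ 0) : M.HasSoc := by
  rcases M.soc_low c (by omega) z hz with h | ⟨z', hz', hlow⟩
  · exact h
  let p : Fin n := ⟨c.val + 1, by omega⟩
  let r : Fin n := ⟨c.val + 2, by omega⟩
  have hp : p.val = c.val + 1 := rfl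
  have hr : r.val = c.val + 2 := rfl
  have hpr : p ≠ r := by
    intro e
    have := congrArg Fin.val e
    omega
  -- the relations at the leaves
  have hleaf : ∀ t : Fin n, c.val < t.val → ∀ x : V t, M.a c t (M.a t c x) = 0 := by
    intro t ht x
    have ht' := t.isLt
    have hrel := M.rel_apply t x
    rw [Finset.sum_eq_single c] at hrel
    · have hlt : c < t := by rw [Fin.lt_def]; exact ht
      rwa [if_pos hlt, one_smul] at hrel
    · intro j _ hj
      have hne : j.val ≠ c.val := fun e => hj (Fin.ext e)
      have hj' := j.isLt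
      rw [M.zero t j (by unfold adjD; omega)]; simp
    · intro h; exact absurd (Finset.mem_univ _) h
  -- the end of the argument
  have hend : ∀ y : V c, y ≠ 0 → M.a p c (M.a c p y) = 0 → M.a r c (M.a c r y) = 0 →
      M.HasSoc := by
    intro y hy h1 h2
    by_cases e1 : M.a c p y = 0
    · by_cases e2 : M.a c r y = 0
      · refine M.soc_desc c (by omega) y hy (fun j hj => ?_)
        have hj' := j.isLt
        by_cases hjp : j = p
        · rw [hjp]; exact e1
        · have hjr : j = r := by
            have : j.val ≠ c.val + 1 := fun e => hjp (Fin.ext e)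
            exact Fin.ext (by omega)
          rw [hjr]; exact e2
      · refine ⟨r, M.a c r y, e2, fun j => ?_⟩
        by_cases hj : j = c
        · rw [hj]; exact h2
        · have hne : j.val ≠ c.val := fun e => hj (Fin.ext e)
          have hj' := j.isLt
          rw [M.zero r j (by unfold adjD; omega)]; rfl
    · refine ⟨p, M.a c p y, e1, fun j => ?_⟩
      by_cases hj : j = c
      · rw [hj]; exact h1
      · have hne : j.val ≠ c.val := fun e => hj (Fin.ext e)
        have hj' := j.isLt
        rw [M.zero p j (by unfold adjD; omega)]; rfl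
  -- the relation at the fork
  have hrel := M.rel_apply c z'
  rw [Finset.sum_eq_add p r hpr] at hrel
  · have n1 : ¬ p < c := by rw [Fin.lt_def]; omega
    have n2 : ¬ r < c := by rw [Fin.lt_def]; omega
    rw [if_neg n1, if_neg n2, neg_smul, one_smul, neg_smul, one_smul] at hrel
    have hab : M.a p c (M.a c p z') = - M.a r c (M.a c r z') := by
      have h3 : M.a p c (M.a c p z') + M.a r c (M.a c r z') = 0 := by
        rw [← neg_eq_zero, neg_add]; exact hrel
      exact eq_neg_of_add_eq_zero_left h3
    by_cases hα : M.a p c (M.a c p z') = 0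
    · refine hend z' hz' hα ?_
      rw [hα] at hab
      exact neg_eq_zero.1 hab.symm
    · refine hend _ hα ?_ ?_
      · rw [hleaf p (by omega), map_zero]
      · rw [hab, map_neg, map_neg, hleaf r (by omega), map_zero, neg_zero]
  · intro j _ hj
    have hj' := j.isLt
    have h1 : j.val ≠ c.val + 1 := fun e => hj.1 (Fin.ext e)
    have h2 : j.val ≠ c.val + 2 := fun e => hj.2 (Fin.ext e)
    rcases lt_trichotomy j.val c.val with h | h | h
    · rw [hlow j h]; simp
    · rw [show j = c from Fin.ext h, M.a_self]; simp
    · omega
  · intro h; exact absurd (Finset.mem_univ _) h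
  · intro h; exact absurd (Finset.mem_univ _) h

theorem soc_asc (i : Fin n) (hi : i.val + 3 ≤ n) (z : V i) (hz : z ≠ 0) : M.HasSoc := by
  induction hm : n - 3 - i.val generalizing i with
  | zero => exact M.soc_fork i (by omega) z hz
  | succ m ih =>
    let i₁ : Fin n := ⟨i.val + 1, by omega⟩
    have hi₁ : i₁.val = i.val + 1 := rfl
    by_cases hu : M.a i i₁ z = 0
    · refine M.soc_desc i hi z hz (fun j hj => ?_)
      by_cases hji : j = i₁
      · rw [hji]; exact hu
      · have hne : j.val ≠ i.val + 1 := fun e => hji (Fin.ext e)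
        rw [M.zero i j (by unfold adjD; omega)]; rfl
    · exact ih i₁ (by omega) (M.a i i₁ z) hu (by omega)

/-- A4, socle form -/
theorem exists_socle (i : Fin n) (x : V i) (hx : x ≠ 0) : M.HasSoc := by
  by_cases hi : i.val + 3 ≤ n
  · exact M.soc_asc i hi x hx
  · have hi' := i.isLt
    by_cases hn : n ≤ 2
    · exact ⟨i, x, hx, fun j => by
        have hj' := j.isLt
        rw [M.zero i j (by unfold adjD; omega)]; rfl⟩
    · let c : Fin n := ⟨n - 3, by omega⟩
      have hc : c.val = n - 3 := rfl
      by_cases h : M.a i c x = 0
      · refine ⟨i, x, hx, fun j => ?_⟩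
        by_cases hj : j = c
        · rw [hj]; exact h
        · have hne : j.val ≠ n - 3 := fun e => hj (Fin.ext e)
          have hj' := j.isLt
          rw [M.zero i j (by unfold adjD; omega)]; rfl
      · exact M.soc_fork c (by omega) _ h

end PiRep

end Claimed.Agent.R282
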