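import Claimed.Agent.R282.K2.A.Flags
import Claimed.Agent.R282.K2.A.Socle

/-!
# Row 282, layer K2, package A2: the Serre relations for chain counts
(leaves L-K2A-S-IIJ, L-K2A-S-JII, L-K2A-S-IJI, L-K2A-S-LIN, L-K2A-S-COMM: ALL DONE, no sorry in this file)

`k` finite, `q = Fintype.card k`, all `V i` finite, `i ~ j` adjacent (so `i ≠ j`).
`SInt M i j N N'` : `N' ≤ N` submodules, equal away from `i, j`, `dim N_i / N'_i = 2`, `dim N_j / N'_j = 1`.
`A := (N i).map (a i j) ≤ N' j` ("alpha bar = 0"),  `B := (N j).map (a j i) ≤ N' i` ("beta bar = 0").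

All intermediate families are of the form `update (update N i L) j L'`.  FACTS used everywhere (for `H : SInt M i j N N'`):
 arrows `x → i` with `x ≠ j` map `N x = N' x` into `N' i`; arrows `x → j` with `x ≠ i` map `N x = N' x` into `N' j`; `a_self`.

PLAN.
* `cnt_iij` : a chain `N > N₁ > N₂ > N'` of type `i,i,j` has `N₂ = update N i (N' i)` (`= update N' j (N j)`), `N₁ = update N i L`, `N' i < L < N i`.
  `N₂` is a submodule iff `B`; if `B` then every `L` is allowed.  So the count is `card_lines_two (N' i) (N i)` or `0`.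
  Technique: `cnt_cons` three times + `cnt_nil`; or `cnt_append` / `cnt_concat`; rewrite the sum as the `Finset.card` of `{N₁}` and use
  `Nat.card_congr` with `L ↦ update N i L`.
* `cnt_jii` : `N₁ = update N j (N' j)` is a submodule iff `A`; `N₂ = update N₁ i L`; every `L` is allowed if `A`.
* `cnt_iji` : `N₁ = update N i L`, `N₂ = update N₁ j (N' j)`; `N₁` is a submodule iff `(N j).map (a j i) ≤ L`; `N₂` iff moreover `L.map (a i j) ≤ N' j`.
* `serre_lin_or` : `A ∨ B`.  Suppose not `A`: `x ∈ N i` with `y = a i j x ∉ N' j`; then `N j = N' j ⊔ span {y}` (codimension one).  `rel_apply i x`: all terms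
  with `j' ≠ j` lie in `N' i` (`a i j' x ∈ N j' = N' j'`), so `a j i y ∈ N' i`; hence `B`.
* `serre_lin_both` : `A ∧ B`: all `L` qualify: `card_lines_two`.
* `serre_lin_A` : `A`, not `B`: the only `L` is `N' i ⊔ (N j).map (a j i)`  (it has `finrank = finrank (N' i) + 1`: `N j = N' j ⊔ span {y}`).
* `serre_lin_B` : `B`, not `A`: the only `L` is `N i ⊓ (N' j).comap (a i j)`  (a hyperplane of `N i`: kernel of `N i → N j ⧸ N' j`, which is onto a line).
* `cnt_comm` : `i, j` not adjacent.  `i = j` trivial.  Otherwise both sides are `1` if `N' ≤ N` are submodules equal away from `i, j` with codimension one at `i`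
  and at `j`, and `0` otherwise (`cnt_shape`): the unique intermediate family is `update N i (N' i)`, resp. `update N j (N' j)`, and it IS a submodule since
  `a i j = 0 = a j i`.
-/

set_option autoImplicit false

namespace Claimed.Agent.R282

open Module

namespace PiRep

variable {k : Type} [Field k] [Fintype k] {n : ℕ} {V : Fin n → Type} [∀ i, AddCommGroup (V i)]
  [∀ i, Module k (V i)] [∀ i, Finite (V i)] {M : PiRep k n V} {N N' : ∀ i, Submodule k (V i)}

/-- an interval of type `2 e_i + e_j` -/
structure SInt (M : PiRep k n V) (i j : Fin n) (N N' : ∀ i, Submodule k (V i)) : Prop where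
  adj : adjD n i j
  sub : M.IsSub N
  sub' : M.IsSub N'
  le : N' ≤ N
  off : ∀ x, x ≠ i → x ≠ j → N' x = N x
  di : finrank k (N' i) + 2 = finrank k (N i)
  dj : finrank k (N' j) + 1 = finrank k (N j)

/-- the admissible middle terms of the chains of type `i, j, i` -/
def SMid (M : PiRep k n V) (i j : Fin n) (N N' : ∀ i, Submodule k (V i)) : Type :=
  {L : Submodule k (V i) // N' i ≤ L ∧ L ≤ N i ∧ finrank k L = finrank k (N' i) + 1 ∧
    (N j).map (M.a j i) ≤ L ∧ L.map (M.a i j) ≤ N' j}

/-- a subspace of codimension one and a vector outside generate -/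
theorem sup_span_of_codim_one {W : Type} [AddCommGroup W] [Module k W] [Finite W]
    {P Q : Submodule k W} (hPQ : P ≤ Q) (hc : finrank k P + 1 = finrank k Q) {y : W} (hy : y ∈ Q)
    (hy' : y ∉ P) : P ⊔ Submodule.span k {y} = Q := by
  apply Submodule.eq_of_le_of_finrank_eq
  · exact sup_le hPQ (by rw [Submodule.span_singleton_le_iff_mem]; exact hy)
  · rw [Submodule.finrank_sup_span_singleton hy', hc]

theorem SInt.ne {i j : Fin n} (H : SInt M i j N N') : i ≠ j :=
  fun e => adjD_irrefl i (e ▸ H.adj : adjD n i i)

theorem rad_le_of (i : Fin n) (N : ∀ i, Submodule k (V i)) (T : Submodule k (V i))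
    (h : ∀ x, x ≠ i → (N x).map (M.a x i) ≤ T) : M.radAt i N i ≤ T := by
  rw [radAt_same]
  refine iSup_le fun x => ?_
  by_cases hx : x = i
  · subst hx
    rw [a_self, Submodule.map_zero]
    exact bot_le
  · exact h x hx

open Classical in
/-- chains of length two at two different vertices: the middle term is forced -/
theorem cnt_two {x y : Fin n} (hxy : x ≠ y) (N N' : ∀ i, Submodule k (V i)) :
    M.cnt [x, y] N N' = if M.Step x N (Function.update N x (N' x)) ∧
      M.Step y (Function.update N x (N' x)) N' then 1 else 0 := by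
  rw [cnt_cons]
  have huniq : ∀ N₁, M.Step x N N₁ → M.Step y N₁ N' → N₁ = Function.update N x (N' x) := by
    intro N₁ h1 h2
    funext z
    by_cases hz : z = x
    · subst hz
      rw [Function.update_self]
      exact (h2.2.2.2.1 z hxy).symm
    · rw [Function.update_of_ne hz]
      exact h1.2.2.2.1 z hz
  split_ifs with h
  · rw [Finset.sum_eq_single (Function.update N x (N' x))]
    · rw [cnt_singleton, if_pos h.2]
    · intro b hb hne
      rw [cnt_singleton, if_neg]
      intro h2
      exact hne (huniq b (M.mem_steps.1 hb) h2)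
    · intro hni
      exact absurd (M.mem_steps.2 h.1) hni
  · apply Finset.sum_eq_zero
    intro b hb
    rw [cnt_singleton, if_neg]
    intro h2
    have e := huniq b (M.mem_steps.1 hb) h2
    subst e
    exact h ⟨M.mem_steps.1 hb, h2⟩

theorem comm_aux {i j : Fin n} (hij : ¬ adjD n i j) (hne : i ≠ j)
    (h1 : M.Step i N (Function.update N i (N' i)))
    (h2 : M.Step j (Function.update N i (N' i)) N') :
    M.Step j N (Function.update N j (N' j)) ∧ M.Step i (Function.update N j (N' j)) N' := by
  have hji : ¬ adjD n j i := fun h => hij (adjD_symm h)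
  have hN := h1.1
  have hN' := h2.2.1
  have hoff : ∀ x, x ≠ i → x ≠ j → N' x = N x := by
    intro x hxi hxj
    rw [h2.2.2.2.1 x hxj, Function.update_of_ne hxi]
  have hlej : N' j ≤ N j := by
    have := h2.2.2.1 j
    rwa [Function.update_of_ne (Ne.symm hne)] at this
  have hlei : N' i ≤ N i := by
    have := h1.2.2.1 i
    rwa [Function.update_self] at this
  have hdi : finrank k (N' i) + 1 = finrank k (N i) := by
    have := h1.2.2.2.2
    rwa [Function.update_self] at this
  have hdj : finrank k (N' j) + 1 = finrank k (N j) := by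
    have := h2.2.2.2.2
    rwa [Function.update_of_ne (Ne.symm hne)] at this
  have s1 : M.Step j N (Function.update N j (N' j)) := by
    rw [step_iff hN]
    refine ⟨N' j, rfl, rad_le_of j N _ (fun x hx => ?_), hlej, hdj⟩
    by_cases hxi : x = i
    · subst hxi
      rw [M.zero x j hij, Submodule.map_zero]
      exact bot_le
    · rw [← hoff x hxi hx]
      exact hN' x j
  refine ⟨s1, ?_⟩
  rw [step_iff s1.2.1]
  refine ⟨N' i, ?_, rad_le_of i _ _ (fun x hx => ?_), ?_, ?_⟩
  · funext x
    by_cases hxi : x = i
    · subst hxi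
      rw [Function.update_self]
    · rw [Function.update_of_ne hxi]
      by_cases hxj : x = j
      · subst hxj
        rw [Function.update_self]
      · rw [Function.update_of_ne hxj, hoff x hxi hxj]
  · by_cases hxj : x = j
    · subst hxj
      rw [M.zero x i hji, Submodule.map_zero]
      exact bot_le
    · rw [Function.update_of_ne hxj, ← hoff x hx hxj]
      exact hN' x i
  · rw [Function.update_of_ne hne]
    exact hlei
  · rw [Function.update_of_ne hne]
    exact hdi

/-- A2, not adjacent -/
theorem cnt_comm {i j : Fin n} (hij : ¬ adjD n i j) (N N' : ∀ i, Submodule k (V i)) :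
    M.cnt [i, j] N N' = M.cnt [j, i] N N' := by
  classical
  by_cases hne : i = j
  · subst hne; rfl
  · rw [cnt_two hne, cnt_two (Ne.symm hne)]
    have hji : ¬ adjD n j i := fun h => hij (adjD_symm h)
    congr 1
    apply propext
    exact ⟨fun h => comm_aux hij hne h.1 h.2, fun h => comm_aux hji (Ne.symm hne) h.1 h.2⟩


theorem qfact_two (q : ℕ) : qfact q 2 = q + 1 := by
  simp [qfact, qnum, Finset.sum_range_succ, add_comm]

/-- arrows into `i` from vertices other than `j` -/
theorem SInt.into_i {i j : Fin n} (H : SInt M i j N N') (x : Fin n) (hxi : x ≠ i) (hxj : x ≠ j) :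
    (N x).map (M.a x i) ≤ N' i := by
  rw [← H.off x hxi hxj]
  exact H.sub' x i

/-- arrows into `j` from vertices other than `i` -/
theorem SInt.into_j {i j : Fin n} (H : SInt M i j N N') (x : Fin n) (hxi : x ≠ i) (hxj : x ≠ j) :
    (N x).map (M.a x j) ≤ N' j := by
  rw [← H.off x hxi hxj]
  exact H.sub' x j

open Classical in
theorem cnt_iij {i j : Fin n} (H : SInt M i j N N') :
    M.cnt [i, i, j] N N' = if (N j).map (M.a j i) ≤ N' i then Fintype.card k + 1 else 0 := by
  have hne := H.ne
  have e : [i, i, j] = List.replicate 2 i ++ [j] := rfl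
  rw [e, cnt_concat]
  have huniq : ∀ N₂, M.Step j N₂ N' → M.cnt (List.replicate 2 i) N N₂ ≠ 0 →
      N₂ = Function.update N i (N' i) ∧ M.radAt i N i ≤ N' i := by
    intro N₂ h1 h2
    obtain ⟨R', e', r1, r2, r3⟩ := cnt_replicate_shape H.sub i 2 N₂ h2
    have h3 : N' i = R' := by
      rw [h1.2.2.2.1 i hne, e', Function.update_self]
    rw [h3]
    exact ⟨e', r1⟩
  split_ifs with hB
  · have hrad : M.radAt i N i ≤ N' i := by
      refine rad_le_of i N _ (fun x hx => ?_)
      by_cases hxj : x = j
      · subst hxj; exact hB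
      · exact H.into_i x hx hxj
    rw [Finset.sum_eq_single (Function.update N i (N' i))]
    · rw [cnt_flags H.sub i 2 (N' i) hrad (H.le i) H.di, qfact_two]
    · intro b hb hne'
      by_contra h0
      exact hne' (huniq b (Finset.mem_filter.1 hb).2 h0).1
    · intro hni
      exfalso
      apply hni
      refine Finset.mem_filter.2 ⟨mem_fams _, isSub_update H.sub i _ hrad (H.le i), H.sub', ?_, ?_,
        ?_⟩
      · intro x
        by_cases hx : x = i
        · subst hx; rw [Function.update_self]
        · rw [Function.update_of_ne hx]; exact H.le x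
      · intro x hx
        by_cases hxi : x = i
        · subst hxi; rw [Function.update_self]
        · rw [Function.update_of_ne hxi]; exact H.off x hxi hx
      · rw [Function.update_of_ne (Ne.symm hne)]
        exact H.dj
  · apply Finset.sum_eq_zero
    intro b hb
    by_contra h0
    apply hB
    refine le_trans ?_ (huniq b (Finset.mem_filter.1 hb).2 h0).2
    rw [radAt_same]
    exact le_iSup (fun x => (N x).map (M.a x i)) j

open Classical in
theorem cnt_jii {i j : Fin n} (H : SInt M i j N N') :
    M.cnt [j, i, i] N N' = if (N i).map (M.a i j) ≤ N' j then Fintype.card k + 1 else 0 := by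
  have hne := H.ne
  have e : [j, i, i] = j :: List.replicate 2 i := rfl
  rw [e, cnt_cons]
  have huniq : ∀ N₁, M.Step j N N₁ → M.cnt (List.replicate 2 i) N₁ N' ≠ 0 →
      N₁ = Function.update N j (N' j) ∧ M.radAt j N j ≤ N' j := by
    intro N₁ h1 h2
    obtain ⟨L, e', l1, l2, l3⟩ := (step_iff H.sub j N₁).1 h1
    obtain ⟨R', e'', r1, r2, r3⟩ := cnt_replicate_shape h1.2.1 i 2 N' h2
    have h3 : N' j = L := by
      rw [e'', Function.update_of_ne (Ne.symm hne), e', Function.update_self]
    rw [h3]
    exact ⟨e', l1⟩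
  split_ifs with hA
  · have hrad : M.radAt j N j ≤ N' j := by
      refine rad_le_of j N _ (fun x hx => ?_)
      by_cases hxi : x = i
      · subst hxi; exact hA
      · exact H.into_j x hxi hx
    have hN₁ : M.IsSub (Function.update N j (N' j)) := isSub_update H.sub j _ hrad (H.le j)
    rw [Finset.sum_eq_single (Function.update N j (N' j))]
    · have e2 : N' = Function.update (Function.update N j (N' j)) i (N' i) := by
        funext x
        by_cases hxi : x = i
        · subst hxi; rw [Function.update_self]
        · rw [Function.update_of_ne hxi]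
          by_cases hxj : x = j
          · subst hxj; rw [Function.update_self]
          · rw [Function.update_of_ne hxj]; exact H.off x hxi hxj
      have h4 := cnt_flags hN₁ i 2 (N' i) (rad_le_of i _ _ (fun x hx => ?_))
        (by rw [Function.update_of_ne hne]; exact H.le i)
        (by rw [Function.update_of_ne hne]; exact H.di)
      · rw [← e2] at h4
        rw [h4, qfact_two]
      · by_cases hxj : x = j
        · subst hxj
          rw [Function.update_self]
          exact H.sub' x i
        · rw [Function.update_of_ne hxj]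
          exact H.into_i x hx hxj
    · intro b hb hne'
      by_contra h0
      exact hne' (huniq b (M.mem_steps.1 hb) h0).1
    · intro hni
      exfalso
      apply hni
      rw [mem_steps, step_iff H.sub]
      exact ⟨N' j, rfl, hrad, H.le j, H.dj⟩
  · apply Finset.sum_eq_zero
    intro b hb
    by_contra h0
    apply hA
    refine le_trans ?_ (huniq b (M.mem_steps.1 hb) h0).2
    rw [radAt_same]
    exact le_iSup (fun x => (N x).map (M.a x j)) i


theorem mid_of_chain {i j : Fin n} (H : SInt M i j N N') {N₁ : ∀ i, Submodule k (V i)}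
    (h1 : M.Step i N N₁) (h2 : M.Step j N₁ (Function.update N₁ j (N' j)))
    (h3 : M.Step i (Function.update N₁ j (N' j)) N') :
    N' i ≤ N₁ i ∧ N₁ i ≤ N i ∧ finrank k (N₁ i) = finrank k (N' i) + 1 ∧
      (N j).map (M.a j i) ≤ N₁ i ∧ (N₁ i).map (M.a i j) ≤ N' j := by
  have hne := H.ne
  refine ⟨?_, h1.2.2.1 i, ?_, ?_, ?_⟩
  · have := h3.2.2.1 i
    rwa [Function.update_of_ne hne] at this
  · have := h3.2.2.2.2
    rw [Function.update_of_ne hne] at this
    exact this.symm
  · rw [← h1.2.2.2.1 j (Ne.symm hne)]
    exact h1.2.1 j i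
  · have := h2.2.1 i j
    rwa [Function.update_of_ne hne, Function.update_self] at this

theorem chain_of_mid {i j : Fin n} (H : SInt M i j N N') {L : Submodule k (V i)}
    (l1 : N' i ≤ L) (l2 : L ≤ N i) (l3 : finrank k L = finrank k (N' i) + 1)
    (l4 : (N j).map (M.a j i) ≤ L) (l5 : L.map (M.a i j) ≤ N' j) :
    M.Step i N (Function.update N i L) ∧
    M.Step j (Function.update N i L) (Function.update (Function.update N i L) j (N' j)) ∧
    M.Step i (Function.update (Function.update N i L) j (N' j)) N' := by
  have hne := H.ne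
  have s1 : M.Step i N (Function.update N i L) := by
    rw [step_iff H.sub]
    refine ⟨L, rfl, rad_le_of i N _ (fun x hx => ?_), l2, ?_⟩
    · by_cases hxj : x = j
      · subst hxj; exact l4
      · exact (H.into_i x hx hxj).trans l1
    · have := H.di
      omega
  have s2 : M.Step j (Function.update N i L)
      (Function.update (Function.update N i L) j (N' j)) := by
    rw [step_iff s1.2.1]
    refine ⟨N' j, rfl, rad_le_of j _ _ (fun x hx => ?_), ?_, ?_⟩
    · by_cases hxi : x = i
      · subst hxi
        rw [Function.update_self]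
        exact l5
      · rw [Function.update_of_ne hxi]
        exact H.into_j x hxi hx
    · rw [Function.update_of_ne (Ne.symm hne)]
      exact H.le j
    · rw [Function.update_of_ne (Ne.symm hne)]
      exact H.dj
  refine ⟨s1, s2, ?_⟩
  rw [step_iff s2.2.1]
  refine ⟨N' i, ?_, rad_le_of i _ _ (fun x hx => ?_), ?_, ?_⟩
  · funext x
    by_cases hxi : x = i
    · subst hxi; rw [Function.update_self]
    · rw [Function.update_of_ne hxi]
      by_cases hxj : x = j
      · subst hxj; rw [Function.update_self]
      · rw [Function.update_of_ne hxj, Function.update_of_ne hxi]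
        exact H.off x hxi hxj
  · by_cases hxj : x = j
    · subst hxj
      rw [Function.update_self]
      exact H.sub' x i
    · rw [Function.update_of_ne hxj, Function.update_of_ne hx]
      exact H.into_i x hx hxj
  · rw [Function.update_of_ne hne, Function.update_self]
    exact l1
  · rw [Function.update_of_ne hne, Function.update_self]
    exact l3.symm

theorem cnt_iji {i j : Fin n} (H : SInt M i j N N') :
    M.cnt [i, j, i] N N' = Nat.card (SMid M i j N N') := by
  classical
  have hne := H.ne
  rw [cnt_cons]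
  simp_rw [cnt_two (Ne.symm hne)]
  rw [Finset.sum_boole, Nat.cast_id, ← Fintype.card_coe, ← Nat.card_eq_fintype_card]
  apply Nat.card_congr
  refine
    { toFun := fun N₁ => ⟨N₁.1 i, ?_⟩
      invFun := fun L => ⟨Function.update N i L.1, ?_⟩
      left_inv := ?_
      right_inv := ?_ }
  · obtain ⟨h1, h2, h3⟩ := Finset.mem_filter.1 N₁.2
    exact mid_of_chain H (M.mem_steps.1 h1) h2 h3
  · obtain ⟨l1, l2, l3, l4, l5⟩ := L.2
    obtain ⟨s1, s2, s3⟩ := chain_of_mid H l1 l2 l3 l4 l5
    exact Finset.mem_filter.2 ⟨M.mem_steps.2 s1, s2, s3⟩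
  · intro N₁
    apply Subtype.ext
    obtain ⟨h1, -⟩ := Finset.mem_filter.1 N₁.2
    have h1' := M.mem_steps.1 h1
    funext x
    by_cases hx : x = i
    · subst hx; simp
    · simp only [Function.update_of_ne hx]
      exact (h1'.2.2.2.1 x hx).symm
  · intro L
    apply Subtype.ext
    simp

theorem serre_lin_or {i j : Fin n} (H : SInt M i j N N') :
    (N i).map (M.a i j) ≤ N' j ∨ (N j).map (M.a j i) ≤ N' i := by
  classical
  by_contra hcon
  push Not at hcon
  obtain ⟨hA, hB⟩ := hcon
  apply hB
  rw [Submodule.map_le_iff_le_comap] at hA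
  obtain ⟨x, hx, hx'⟩ := SetLike.not_le_iff_exists.1 hA
  have hy : M.a i j x ∈ N j := H.sub i j (Submodule.mem_map_of_mem hx)
  have hy' : M.a i j x ∉ N' j := hx'
  have hgen := sup_span_of_codim_one (H.le j) H.dj hy hy'
  have hrel := M.rel_apply i x
  rw [← Finset.add_sum_erase _ _ (Finset.mem_univ j)] at hrel
  have hrest : ∑ j' ∈ Finset.univ.erase j,
      (if j' < i then (1 : k) else -1) • M.a j' i (M.a i j' x) ∈ N' i := by
    apply Submodule.sum_mem
    intro j' hj'
    have hj'j : j' ≠ j := (Finset.mem_erase.1 hj').1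
    apply Submodule.smul_mem
    by_cases hj'i : j' = i
    · subst hj'i
      rw [M.a_self]
      simp
    · apply H.sub' j' i
      apply Submodule.mem_map_of_mem
      rw [H.off j' hj'i hj'j]
      exact H.sub i j' (Submodule.mem_map_of_mem hx)
  have hmain : (if j < i then (1 : k) else -1) • M.a j i (M.a i j x) ∈ N' i := by
    rw [eq_neg_of_add_eq_zero_left hrel]
    exact Submodule.neg_mem _ hrest
  have hε : (if j < i then (1 : k) else -1) ≠ 0 := by split_ifs <;> simp
  rw [Submodule.smul_mem_iff _ hε] at hmain
  rw [← hgen, Submodule.map_sup, Submodule.map_span, Set.image_singleton]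
  refine sup_le (H.sub' j i) ?_
  rw [Submodule.span_singleton_le_iff_mem]
  exact hmain

theorem serre_lin_both {i j : Fin n} (H : SInt M i j N N') (hA : (N i).map (M.a i j) ≤ N' j)
    (hB : (N j).map (M.a j i) ≤ N' i) : Nat.card (SMid M i j N N') = Fintype.card k + 1 := by
  rw [← card_lines_two (N' i) (N i) (H.le i) H.di]
  apply Nat.card_congr
  apply Equiv.subtypeEquivRight
  intro L
  constructor
  · rintro ⟨h1, h2, h3, -, -⟩
    exact ⟨h1, h2, h3⟩
  · rintro ⟨h1, h2, h3⟩
    exact ⟨h1, h2, h3, hB.trans h1, (Submodule.map_mono h2).trans hA⟩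

theorem serre_lin_A {i j : Fin n} (H : SInt M i j N N') (hA : (N i).map (M.a i j) ≤ N' j)
    (hB : ¬ (N j).map (M.a j i) ≤ N' i) : Nat.card (SMid M i j N N') = 1 := by
  rw [Submodule.map_le_iff_le_comap] at hB
  obtain ⟨y, hy, hy'⟩ := SetLike.not_le_iff_exists.1 hB
  have hy'' : M.a j i y ∉ N' i := hy'
  have hyN' : y ∉ N' j := fun h => hy'' (H.sub' j i (Submodule.mem_map_of_mem h))
  have hgen := sup_span_of_codim_one (H.le j) H.dj hy hyN'
  have hyi : M.a j i y ∈ N i := H.sub j i (Submodule.mem_map_of_mem hy)
  rw [Nat.card_eq_one_iff_unique]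
  constructor
  · constructor
    rintro ⟨L, l1, l2, l3, l4, l5⟩ ⟨L', l1', l2', l3', l4', l5'⟩
    apply Subtype.ext
    show L = L'
    have key : ∀ L'' : Submodule k (V i), N' i ≤ L'' → finrank k L'' = finrank k (N' i) + 1 →
        (N j).map (M.a j i) ≤ L'' → N' i ⊔ Submodule.span k {M.a j i y} = L'' := by
      intro L'' h1 h3 h4
      apply Submodule.eq_of_le_of_finrank_eq
      · refine sup_le h1 ?_
        rw [Submodule.span_singleton_le_iff_mem]
        exact h4 (Submodule.mem_map_of_mem hy)
      · rw [Submodule.finrank_sup_span_singleton hy'', h3]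
    rw [← key L l1 l3 l4, ← key L' l1' l3' l4']
  · refine ⟨⟨N' i ⊔ Submodule.span k {M.a j i y}, le_sup_left, ?_,
      Submodule.finrank_sup_span_singleton hy'', ?_, ?_⟩⟩
    · refine sup_le (H.le i) ?_
      rw [Submodule.span_singleton_le_iff_mem]
      exact hyi
    · rw [← hgen, Submodule.map_sup, Submodule.map_span, Set.image_singleton]
      exact sup_le_sup_right (H.sub' j i) _
    · refine le_trans (Submodule.map_mono ?_) hA
      refine sup_le (H.le i) ?_
      rw [Submodule.span_singleton_le_iff_mem]
      exact hyi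

theorem serre_lin_B {i j : Fin n} (H : SInt M i j N N') (hA : ¬ (N i).map (M.a i j) ≤ N' j)
    (hB : (N j).map (M.a j i) ≤ N' i) : Nat.card (SMid M i j N N') = 1 := by
  rw [Submodule.map_le_iff_le_comap] at hA
  obtain ⟨x, hx, hx'⟩ := SetLike.not_le_iff_exists.1 hA
  have hy : M.a i j x ∈ N j := H.sub i j (Submodule.mem_map_of_mem hx)
  have hy' : M.a i j x ∉ N' j := hx'
  have hgen := sup_span_of_codim_one (H.le j) H.dj hy hy'
  set L₀ : Submodule k (V i) := N i ⊓ (N' j).comap (M.a i j) with hL₀
  have hxL₀ : x ∉ L₀ := fun h => hx' h.2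
  have hsup : L₀ ⊔ Submodule.span k {x} = N i := by
    apply le_antisymm
    · refine sup_le inf_le_left ?_
      rw [Submodule.span_singleton_le_iff_mem]
      exact hx
    · intro u hu
      have hu' : M.a i j u ∈ N' j ⊔ Submodule.span k {M.a i j x} := by
        rw [hgen]
        exact H.sub i j (Submodule.mem_map_of_mem hu)
      obtain ⟨v, hv, w, hw, hvw⟩ := Submodule.mem_sup.1 hu'
      obtain ⟨t, rfl⟩ := Submodule.mem_span_singleton.1 hw
      have h1 : u - t • x ∈ L₀ := by
        refine ⟨Submodule.sub_mem _ hu (Submodule.smul_mem _ _ hx), ?_⟩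
        show M.a i j (u - t • x) ∈ N' j
        rw [map_sub, map_smul, ← hvw, add_sub_cancel_right]
        exact hv
      have h2 : u = (u - t • x) + t • x := by abel
      rw [h2]
      exact Submodule.add_mem _ (Submodule.mem_sup_left h1)
        (Submodule.mem_sup_right (Submodule.smul_mem _ _ (Submodule.mem_span_singleton_self x)))
  have hfin : finrank k L₀ = finrank k (N' i) + 1 := by
    have h1 := Submodule.finrank_sup_span_singleton hxL₀
    rw [hsup] at h1
    have h2 := H.di
    omega
  rw [Nat.card_eq_one_iff_unique]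
  constructor
  · constructor
    rintro ⟨L, l1, l2, l3, l4, l5⟩ ⟨L', l1', l2', l3', l4', l5'⟩
    apply Subtype.ext
    show L = L'
    have key : ∀ L'' : Submodule k (V i), L'' ≤ N i → finrank k L'' = finrank k (N' i) + 1 →
        L''.map (M.a i j) ≤ N' j → L'' = L₀ := by
      intro L'' h2 h3 h5
      apply Submodule.eq_of_le_of_finrank_eq
      · exact le_inf h2 (Submodule.map_le_iff_le_comap.1 h5)
      · rw [h3, hfin]
    rw [key L l2 l3 l5, key L' l2' l3' l5']
  · refine ⟨⟨L₀, ?_, inf_le_left, hfin, ?_, ?_⟩⟩
    · exact le_inf (H.le i) (Submodule.map_le_iff_le_comap.1 (H.sub' i j))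
    · exact hB.trans (le_inf (H.le i) (Submodule.map_le_iff_le_comap.1 (H.sub' i j)))
    · exact Submodule.map_le_iff_le_comap.2 inf_le_right

/-- a nonzero count of degree `2 e_i + e_j` forces the interval shape -/
theorem sint_of_cnt {i j : Fin n} (hij : adjD n i j) (w : List (Fin n))
    (hw : ∀ x, w.count x = [i, i, j].count x) (hne : w ≠ [])
    (h : M.cnt w N N' ≠ 0) : SInt M i j N N' := by
  have hne' : i ≠ j := fun e => adjD_irrefl i (e ▸ hij : adjD n i i)
  obtain ⟨x, w', rfl⟩ := List.exists_cons_of_ne_nil hne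
  have hN := cnt_isSub x w' N' h
  obtain ⟨h1, h2, h3⟩ := cnt_shape hN _ N' h
  refine ⟨hij, hN, h1, h2, ?_, ?_, ?_⟩
  · intro y hyi hyj
    have := h3 y
    rw [hw y] at this
    have hc : [i, i, j].count y = 0 := by
      simp [List.count_cons, Ne.symm hyi, Ne.symm hyj]
    rw [hc] at this
    exact Submodule.eq_of_le_of_finrank_eq (h2 y) (by omega)
  · have := h3 i
    rw [hw i] at this
    have hc : [i, i, j].count i = 2 := by
      simp [List.count_cons, Ne.symm hne']
    omega
  · have := h3 j
    rw [hw j] at this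
    have hc : [i, i, j].count j = 1 := by
      simp [List.count_cons, hne']
    omega

/-- A2, adjacent: the four possible triples of counts -/
theorem serre_adj {i j : Fin n} (hij : adjD n i j) (N N' : ∀ i, Submodule k (V i)) :
    (M.cnt [i, i, j] N N' = 0 ∧ M.cnt [i, j, i] N N' = 0 ∧ M.cnt [j, i, i] N N' = 0) ∨
    (M.cnt [i, i, j] N N' = Fintype.card k + 1 ∧ M.cnt [i, j, i] N N' = Fintype.card k + 1 ∧
      M.cnt [j, i, i] N N' = Fintype.card k + 1) ∨
    (M.cnt [i, i, j] N N' = Fintype.card k + 1 ∧ M.cnt [i, j, i] N N' = 1 ∧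
      M.cnt [j, i, i] N N' = 0) ∨
    (M.cnt [i, i, j] N N' = 0 ∧ M.cnt [i, j, i] N N' = 1 ∧
      M.cnt [j, i, i] N N' = Fintype.card k + 1) := by
  classical
  by_cases H : SInt M i j N N'
  · rw [cnt_iij H, cnt_jii H, cnt_iji H]
    by_cases hA : (N i).map (M.a i j) ≤ N' j <;> by_cases hB : (N j).map (M.a j i) ≤ N' i
    · right; left
      simp [hA, hB, serre_lin_both H hA hB]
    · right; right; right
      simp [hA, hB, serre_lin_A H hA hB]
    · right; right; left
      simp [hA, hB, serre_lin_B H hA hB]
    · exact absurd (serre_lin_or H) (by tauto)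
  · left
    refine ⟨?_, ?_, ?_⟩
    · by_contra h
      exact H (sint_of_cnt hij _ (fun _ => rfl) (by simp) h)
    · by_contra h
      refine H (sint_of_cnt hij _ (fun x => ?_) (by simp) h)
      simp only [List.count_cons, List.count_nil]; omega
    · by_contra h
      refine H (sint_of_cnt hij _ (fun x => ?_) (by simp) h)
      simp only [List.count_cons, List.count_nil]; omega

end PiRep

end Claimed.Agent.R282
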